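import Vale.Agent.P073.PR.Fill

/-!
# P073, block PR: disjoint conical circles in the boundary of a convex body bound disjoint discs

Input: the Jordan-Schoenflies property `JordanSch S` of the surface `S`.
-/

open Set Metric Topology Filter

namespace P073

variable {E : Type*} [NormedAddCommGroup E] [NormedSpace ℝ E]

/-- the Jordan-Schoenflies property of `S` (for conical `(n-1)`-spheres). -/
def JordanSch (n : ℕ) (S : Set E) : Prop :=
  ∀ γ ⊆ S, ConSphere (n - 1) γ → ∃ U V : Set E, Disjoint U V ∧ U ∪ V = S \ γ ∧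
    U.Nonempty ∧ V.Nonempty ∧ ConBall n (U ∪ γ) γ ∧ ConBall n (V ∪ γ) γ

theorem ConBall.isPreconnected {n : ℕ} {C B : Set E} (h : ConBall n C B) : IsPreconnected C := by
  obtain ⟨_, φ, _⟩ := h
  rw [← φ.symm.image_eq]
  exact ((convex_closedBall (0 : Fin n → ℝ) 1).isPreconnected).image _ φ.symm.cont

/-- a preconnected set inside the union of two closed sets without common points in it -/
theorem IsPreconnected.subset_or {T : Type*} [TopologicalSpace T] {A C D : Set T}
    (hA : IsPreconnected A) (hC : IsClosed C) (hD : IsClosed D) (hsub : A ⊆ C ∪ D)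
    (hdis : ∀ x ∈ A, x ∈ C → x ∉ D) : A ⊆ C ∨ A ⊆ D := by
  by_contra hcon
  push Not at hcon
  obtain ⟨h1, h2⟩ := hcon
  obtain ⟨x, hx, hxC⟩ := Set.not_subset.1 h1
  obtain ⟨y, hy, hyD⟩ := Set.not_subset.1 h2
  have hxD : x ∈ D := (hsub hx).resolve_left hxC
  have hyC : y ∈ C := (hsub hy).resolve_right hyD
  obtain ⟨z, hz, hzC, hzD⟩ := isPreconnected_closed_iff.1 hA C D hC hD hsub ⟨y, hy, hyC⟩
    ⟨x, hx, hxD⟩
  exact hdis z hz hzC hzD

/-- a preconnected subset of a finite disjoint union of closed sets is in one of them. -/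
theorem IsPreconnected.subset_of_finite {T J : Type*} [TopologicalSpace T] [Finite J]
    {A : Set T} (hA : IsPreconnected A) (C : J → Set T) (hC : ∀ j, IsClosed (C j))
    (hsub : A ⊆ ⋃ j, C j) (hdis : ∀ i j, i ≠ j → Disjoint (C i) (C j)) {j₀ : J} {x : T}
    (hx : x ∈ A) (hxj : x ∈ C j₀) : A ⊆ C j₀ := by
  have hs : A ⊆ C j₀ ∪ ⋃ j : {j // j ≠ j₀}, C j.1 := by
    intro y hy
    obtain ⟨j, hj⟩ := mem_iUnion.1 (hsub hy)
    by_cases hjj : j = j₀
    · left; rw [← hjj]; exact hj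
    · right; exact mem_iUnion.2 ⟨⟨j, hjj⟩, hj⟩
  have hd : ∀ y ∈ A, y ∈ C j₀ → y ∉ ⋃ j : {j // j ≠ j₀}, C j.1 := by
    intro y _ hy1 hy2
    obtain ⟨j, hj⟩ := mem_iUnion.1 hy2
    exact Set.disjoint_left.1 (hdis j.1 j₀ j.2) hj hy1
  rcases IsPreconnected.subset_or hA (hC j₀)
    (isClosed_iUnion_of_finite (s := fun j : {j // j ≠ j₀} => C j.1) fun j => hC j.1) hs hd with
    h | h
  · exact h
  · exfalso
    obtain ⟨j, hj⟩ := mem_iUnion.1 (h hx)
    exact Set.disjoint_left.1 (hdis j.1 j₀ j.2) hj hxj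

/-- **laminarity** of the sides not containing the base point. -/
theorem laminar_of_sides {J T : Type*} [TopologicalSpace T] {S : Set T} {p : T}
    (γ U W : J → Set T) (hγS : ∀ j, γ j ⊆ S) (hne : ∀ j, (γ j).Nonempty)
    (hUW : ∀ j, Disjoint (U j) (W j)) (hS : ∀ j, U j ∪ W j = S \ γ j)
    (hKc : ∀ j, IsClosed (U j ∪ γ j)) (hLc : ∀ j, IsClosed (W j ∪ γ j))
    (hK : ∀ j, IsPreconnected (U j ∪ γ j)) (hL : ∀ j, IsPreconnected (W j ∪ γ j))
    (hp : ∀ j, p ∈ W j) (hdis : ∀ i j, i ≠ j → Disjoint (γ i) (γ j))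
    (hside : ∀ i j, i ≠ j → γ i ⊆ U j ∨ γ i ⊆ W j) :
    ∀ i j, i ≠ j → Disjoint (U i ∪ γ i) (U j ∪ γ j) ∨ U i ∪ γ i ⊆ (U j ∪ γ j) \ γ j ∨
      U j ∪ γ j ⊆ (U i ∪ γ i) \ γ i := by
  have hUS : ∀ j, U j ⊆ S := fun j x hx => ((hS j) ▸ (Or.inl hx : x ∈ U j ∪ W j) : x ∈ S \ γ j).1
  have hWS : ∀ j, W j ⊆ S := fun j x hx => ((hS j) ▸ (Or.inr hx : x ∈ U j ∪ W j) : x ∈ S \ γ j).1
  have hUγ : ∀ j, ∀ x ∈ U j, x ∉ γ j :=
    fun j x hx => ((hS j) ▸ (Or.inl hx : x ∈ U j ∪ W j) : x ∈ S \ γ j).2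
  have hWγ : ∀ j, ∀ x ∈ W j, x ∉ γ j :=
    fun j x hx => ((hS j) ▸ (Or.inr hx : x ∈ U j ∪ W j) : x ∈ S \ γ j).2
  -- connected subsets of `S` missing `γ j` are on one side
  have side : ∀ j (A : Set T), IsPreconnected A → A ⊆ S → (∀ x ∈ A, x ∉ γ j) →
      A ⊆ U j ∨ A ⊆ W j := by
    intro j A hA hAS hAγ
    have hsub : A ⊆ (U j ∪ γ j) ∪ (W j ∪ γ j) := by
      intro x hx
      have : x ∈ U j ∪ W j := by rw [hS j]; exact ⟨hAS hx, hAγ x hx⟩
      rcases this with h | h
      · exact Or.inl (Or.inl h)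
      · exact Or.inr (Or.inl h)
    rcases IsPreconnected.subset_or hA (hKc j) (hLc j) hsub (by
      intro x hx h1 h2
      rcases h1 with h1 | h1
      · rcases h2 with h2 | h2
        · exact Set.disjoint_left.1 (hUW j) h1 h2
        · exact hAγ x hx h2
      · exact hAγ x hx h1) with h | h
    · left; intro x hx; exact (h hx).resolve_right (hAγ x hx)
    · right; intro x hx; exact (h hx).resolve_right (hAγ x hx)
  -- key: if `γ i ⊆ U j` then `W j ∪ γ j ⊆ W i`
  have key : ∀ i j, i ≠ j → γ i ⊆ U j → W j ∪ γ j ⊆ W i := by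
    intro i j hij h
    have hmiss : ∀ x ∈ W j ∪ γ j, x ∉ γ i := by
      rintro x (hx | hx) hxi
      · exact Set.disjoint_left.1 (hUW j) (h hxi) hx
      · exact hUγ j x (h hxi) hx
    rcases side i _ (hL j) (union_subset (hWS j) (hγS j)) hmiss with h1 | h1
    · exfalso
      exact Set.disjoint_left.1 (hUW i) (h1 (Or.inl (hp j))) (hp i)
    · exact h1
  intro i j hij
  rcases hside i j hij with h1 | h1
  · -- `γ i ⊆ U j`
    right; left
    have h2 := key i j hij h1
    intro x hx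
    have hxS : x ∈ S := by
      rcases hx with hx | hx
      · exact hUS i hx
      · exact hγS i hx
    have hxn : x ∉ W j ∪ γ j := by
      intro hx'
      have := h2 hx'
      rcases hx with hx | hx
      · exact Set.disjoint_left.1 (hUW i) hx this
      · exact hWγ i x this hx
    have : x ∈ U j ∪ W j := by
      rw [hS j]; exact ⟨hxS, fun h => hxn (Or.inr h)⟩
    rcases this with h | h
    · exact ⟨Or.inl h, hUγ j x h⟩
    · exact absurd (Or.inl h) hxn
  · rcases hside j i hij.symm with h3 | h3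
    · right; right
      have h2 := key j i hij.symm h3
      intro x hx
      have hxS : x ∈ S := by
        rcases hx with hx | hx
        · exact hUS j hx
        · exact hγS j hx
      have hxn : x ∉ W i ∪ γ i := by
        intro hx'
        have := h2 hx'
        rcases hx with hx | hx
        · exact Set.disjoint_left.1 (hUW j) hx this
        · exact hWγ j x this hx
      have : x ∈ U i ∪ W i := by
        rw [hS i]; exact ⟨hxS, fun h => hxn (Or.inr h)⟩
      rcases this with h | h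
      · exact ⟨Or.inl h, hUγ i x h⟩
      · exact absurd (Or.inl h) hxn
    · left
      have hmiss : ∀ x ∈ U i ∪ γ i, x ∉ γ j := by
        rintro x (hx | hx) hxj
        · exact Set.disjoint_left.1 (hUW i) hx (h3 hxj)
        · exact Set.disjoint_left.1 (hdis i j hij) hx hxj
      obtain ⟨z, hz⟩ := hne i
      rcases side j _ (hK i) (union_subset (hUS i) (hγS i)) hmiss with h4 | h4
      · exfalso
        exact Set.disjoint_left.1 (hUW j) (h4 (Or.inr hz)) (h1 hz)
      · rw [Set.disjoint_left]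
        intro x hx hx'
        have hxW := h4 hx
        rcases hx' with hx' | hx'
        · exact Set.disjoint_left.1 (hUW j) hx' hxW
        · exact hWγ j x hxW hx'

/-- **Discs**: finitely many disjoint conical circles in the boundary `B` of a convex body bound
disjoint conical discs in the body, meeting `B` exactly in the circles. -/
theorem exists_discs {J : Type*} [Finite J] {B : Set E} (hB : RayBase B) (hJS : JordanSch 2 B)
    (γ : J → Set E) (hγ : ∀ j, ConSphere 1 (γ j)) (hγB : ∀ j, γ j ⊆ B)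
    (hdis : ∀ i j, i ≠ j → Disjoint (γ i) (γ j)) :
    ∃ D : J → Set E, (∀ j, ConBall 2 (D j) (γ j)) ∧ (∀ j, D j ∩ B = γ j) ∧
      (∀ j, D j ⊆ coneSet B) ∧ ∀ i j, i ≠ j → Disjoint (D i) (D j) := by
  classical
  rcases isEmpty_or_nonempty J with hJ | ⟨⟨j₀⟩⟩
  · exact ⟨fun j => (hJ.false j).elim, fun j => (hJ.false j).elim, fun j => (hJ.false j).elim,
      fun j => (hJ.false j).elim, fun j => (hJ.false j).elim⟩
  have hne : ∀ j, (γ j).Nonempty := by
    intro j
    obtain ⟨φ⟩ := hγ j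
    rw [← φ.symm.image_eq]
    exact (NormedSpace.sphere_nonempty.2 zero_le_one).image _
  have hcl : ∀ j, IsClosed (γ j) := by
    intro j
    obtain ⟨φ⟩ := hγ j
    exact (φ.symm.isCompact_right (isCompact_sphere _ _)).isClosed
  have hconn : ∀ j, IsPreconnected (γ j) := by
    intro j
    obtain ⟨φ⟩ := hγ j
    rw [← φ.symm.image_eq]
    refine IsPreconnected.image ?_ _ φ.symm.cont
    refine (isConnected_sphere (E := Fin 2 → ℝ) ?_ 0 zero_le_one).isPreconnected
    rw [rank_fun']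
    simp
  choose U V hUV hS hU hV hUb hVb using fun j => hJS (γ j) (hγB j) (hγ j)
  -- the base point
  obtain ⟨p, hpB, hp⟩ : ∃ p ∈ B, ∀ j, p ∉ γ j := by
    by_contra hcon
    push Not at hcon
    have hUB : U j₀ ⊆ B := fun x hx => ((hS j₀) ▸ (Or.inl hx : x ∈ U j₀ ∪ V j₀) : x ∈ B \ γ j₀).1
    have hsub : U j₀ ∪ γ j₀ ⊆ ⋃ j, γ j := by
      intro x hx
      have hxB : x ∈ B := by
        rcases hx with hx | hx
        · exact hUB hx
        · exact hγB j₀ hx
      obtain ⟨j, hj⟩ := hcon x hxB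
      exact mem_iUnion.2 ⟨j, hj⟩
    obtain ⟨z, hz⟩ := hne j₀
    have h1 := IsPreconnected.subset_of_finite (hUb j₀).isPreconnected γ hcl hsub hdis
      (Or.inr hz : z ∈ U j₀ ∪ γ j₀) hz
    obtain ⟨x, hx⟩ := hU j₀
    exact ((hS j₀) ▸ (Or.inl hx : x ∈ U j₀ ∪ V j₀) : x ∈ B \ γ j₀).2 (h1 (Or.inl hx))
  -- choose the sides
  have hch : ∀ j, ∃ U' W' : Set E, Disjoint U' W' ∧ U' ∪ W' = B \ γ j ∧
      ConBall 2 (U' ∪ γ j) (γ j) ∧ ConBall 2 (W' ∪ γ j) (γ j) ∧ p ∈ W' := by
    intro j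
    have : p ∈ U j ∪ V j := by rw [hS j]; exact ⟨hpB, hp j⟩
    rcases this with h | h
    · exact ⟨V j, U j, (hUV j).symm, by rw [union_comm]; exact hS j, hVb j, hUb j, h⟩
    · exact ⟨U j, V j, hUV j, hS j, hUb j, hVb j, h⟩
  choose U' W' hUW' hS' hUb' hWb' hpW' using hch
  have hside : ∀ i j, i ≠ j → γ i ⊆ U' j ∨ γ i ⊆ W' j := by
    intro i j hij
    have hmiss : ∀ x ∈ γ i, x ∉ γ j := fun x hx hx' => Set.disjoint_left.1 (hdis i j hij) hx hx'
    have hsub : γ i ⊆ (U' j ∪ γ j) ∪ (W' j ∪ γ j) := by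
      intro x hx
      have : x ∈ U' j ∪ W' j := by rw [hS' j]; exact ⟨hγB i hx, hmiss x hx⟩
      rcases this with h | h
      · exact Or.inl (Or.inl h)
      · exact Or.inr (Or.inl h)
    rcases IsPreconnected.subset_or (hconn i) (hUb' j).isClosed (hWb' j).isClosed hsub (by
      intro x hx h1 h2
      rcases h1 with h1 | h1
      · rcases h2 with h2 | h2
        · exact Set.disjoint_left.1 (hUW' j) h1 h2
        · exact hmiss x hx h2
      · exact hmiss x hx h1) with h | h
    · left; intro x hx; exact (h hx).resolve_right (hmiss x hx)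
    · right; intro x hx; exact (h hx).resolve_right (hmiss x hx)
  have hlam := laminar_of_sides (p := p) γ U' W' hγB hne hUW' hS'
    (fun j => (hUb' j).isClosed) (fun j => (hWb' j).isClosed)
    (fun j => (hUb' j).isPreconnected) (fun j => (hWb' j).isPreconnected) hpW' hdis hside
  have hUB' : ∀ j, U' j ∪ γ j ⊆ B := by
    rintro j x (hx | hx)
    · exact ((hS' j) ▸ (Or.inl hx : x ∈ U' j ∪ W' j) : x ∈ B \ γ j).1
    · exact hγB j hx
  exact exists_fill hB two_ne_zero γ (fun j => U' j ∪ γ j) hUb' hUB' hdis hlam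

end P073
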