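import Vale.Agent.P073.PR.Ball

/-!
# P073, block PR: the closed hemispheres of the standard (cubical) sphere are conical discs, and
the Jordan-Schoenflies property of the standard sphere from the equator form.
-/

open Set Metric Topology Filter

namespace P073

variable {E : Type*} [NormedAddCommGroup E] [NormedSpace ℝ E]

theorem ConicalOn.rabs {X : Set E} {a : E → ℝ} (h : ConicalOn a X) (hc : ContinuousOn a X) :
    ConicalOn (fun t => |a t|) X := by
  have : (fun t => |a t|) = fun t => max (a t) (-a t) := by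
    funext t; exact abs_eq_max_neg
  rw [this]
  exact h.rmax h.neg hc hc.neg

theorem conicalOn_coord {ι : Type*} [Fintype ι] {X : Set (ι → ℝ)} (hX : ConicalSet X) (i : ι) :
    ConicalOn (fun v : ι → ℝ => v i) X :=
  conicalOn_linear (LinearMap.proj i) hX

theorem mem_sphere_fin3 (v : Fin 3 → ℝ) : v ∈ sphere (0 : Fin 3 → ℝ) 1 ↔
    |v 0| ≤ 1 ∧ |v 1| ≤ 1 ∧ |v 2| ≤ 1 ∧ (|v 0| = 1 ∨ |v 1| = 1 ∨ |v 2| = 1) := by
  rw [mem_sphere_zero_iff_norm]
  constructor
  · intro h
    have h0 := norm_le_pi_norm v 0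
    have h1 := norm_le_pi_norm v 1
    have h2 := norm_le_pi_norm v 2
    rw [h, Real.norm_eq_abs] at h0 h1 h2
    refine ⟨h0, h1, h2, ?_⟩
    by_contra hcon
    push Not at hcon
    have h2 : ‖v‖ < 1 := by
      rw [pi_norm_lt_iff one_pos]
      intro i
      fin_cases i
      · exact lt_of_le_of_ne h0 hcon.1
      · exact lt_of_le_of_ne h1 hcon.2.1
      · exact lt_of_le_of_ne h2 hcon.2.2
    linarith
  · rintro ⟨h0, h1, h2, h⟩
    apply le_antisymm
    · rw [pi_norm_le_iff_of_nonneg zero_le_one]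
      intro i
      fin_cases i
      · exact h0
      · exact h1
      · exact h2
    · rcases h with h | h | h
      · rw [← h]; exact norm_le_pi_norm v 0
      · rw [← h]; exact norm_le_pi_norm v 1
      · rw [← h]; exact norm_le_pi_norm v 2

/-- the fold map of one coordinate -/
noncomputable def gfold (z y : ℝ) : ℝ := max (-((|y| + 1 - z) / 2)) (min ((|y| + 1 - z) / 2) y)

theorem gfold_cases {z : ℝ} (hz : z ≤ 1) (y : ℝ) :
    (|y| ≤ 1 - z ∧ gfold z y = y) ∨ (1 - z ≤ y ∧ gfold z y = (y + 1 - z) / 2) ∨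
      (y ≤ -(1 - z) ∧ gfold z y = (y - 1 + z) / 2) := by
  unfold gfold
  rcases le_total |y| (1 - z) with h | h
  · left
    refine ⟨h, ?_⟩
    have h1 := neg_abs_le y
    have h2 := le_abs_self y
    rw [min_eq_right (by linarith), max_eq_right (by linarith)]
  · right
    rcases le_total 0 y with h0 | h0
    · left
      rw [abs_of_nonneg h0] at h ⊢
      refine ⟨h, ?_⟩
      rw [min_eq_left (by linarith), max_eq_right (by linarith)]
    · right
      rw [abs_of_nonpos h0] at h ⊢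
      refine ⟨by linarith, ?_⟩
      rw [min_eq_right (by linarith), max_eq_left (by linarith)]
      ring

theorem gfold_inj {z : ℝ} (hz : z ≤ 1) {y y' : ℝ} (h : gfold z y = gfold z y') : y = y' := by
  have key : ∀ u : ℝ, (-(1 - z) ≤ u ∧ u ≤ 1 - z ∧ gfold z u = u) ∨
      (1 - z ≤ u ∧ gfold z u = (u + 1 - z) / 2) ∨
      (u ≤ -(1 - z) ∧ gfold z u = (u - 1 + z) / 2) := by
    intro u
    rcases gfold_cases hz u with ⟨h1, h2⟩ | h1 | h1
    · rw [abs_le] at h1; exact Or.inl ⟨h1.1, h1.2, h2⟩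
    · exact Or.inr (Or.inl h1)
    · exact Or.inr (Or.inr h1)
  rcases key y with ⟨h1, h1', h2⟩ | ⟨h1, h2⟩ | ⟨h1, h2⟩ <;>
  rcases key y' with ⟨h3, h3', h4⟩ | ⟨h3, h4⟩ | ⟨h3, h4⟩ <;>
  rw [h2, h4] at h <;> linarith

theorem gfold_abs_le {z y : ℝ} (h0 : 0 ≤ z) (hz : z ≤ 1) (hy : |y| ≤ 1) :
    |gfold z y| ≤ 1 - z / 2 := by
  rw [abs_le] at hy
  rcases gfold_cases hz y with ⟨h1, h2⟩ | ⟨h1, h2⟩ | ⟨h1, h2⟩ <;> rw [h2, abs_le]
  · rw [abs_le] at h1; constructor <;> linarith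
  · constructor <;> linarith
  · constructor <;> linarith

theorem gfold_abs_eq {z y : ℝ} (h0 : 0 ≤ z) (hz : z ≤ 1) (hy : |y| = 1) :
    |gfold z y| = 1 - z / 2 := by
  rcases eq_or_eq_neg_of_abs_eq hy with rfl | rfl
  · rcases gfold_cases hz 1 with ⟨h1, h2⟩ | ⟨h1, h2⟩ | ⟨h1, h2⟩
    · rw [h2, abs_one]; rw [abs_one] at h1; linarith
    · rw [h2, abs_of_nonneg (by linarith)]; ring
    · linarith
  · rcases gfold_cases hz (-1) with ⟨h1, h2⟩ | ⟨h1, h2⟩ | ⟨h1, h2⟩
    · rw [h2, abs_neg, abs_one]; rw [abs_neg, abs_one] at h1; linarith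
    · linarith
    · rw [h2, abs_of_nonpos (by linarith)]; ring

theorem gfold_abs_eq' {z y : ℝ} (h0 : 0 ≤ z) (hz : z < 1) (hy : |y| ≤ 1)
    (h : |gfold z y| = 1 - z / 2) : |y| = 1 := by
  rcases gfold_cases hz.le y with ⟨h1, h2⟩ | ⟨h1, h2⟩ | ⟨h1, h2⟩ <;> rw [h2] at h
  · linarith
  · rw [abs_of_nonneg (by linarith)] at h
    have : y = 1 := by linarith
    rw [this, abs_one]
  · rw [abs_of_nonpos (by linarith)] at h
    have : y = -1 := by linarith
    rw [this, abs_neg, abs_one]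

theorem gfold_surj {z w : ℝ} (h0 : 0 ≤ z) (hz : z ≤ 1) (hw : |w| ≤ 1 - z / 2) :
    ∃ y, |y| ≤ 1 ∧ gfold z y = w := by
  rw [abs_le] at hw
  rcases le_total |w| (1 - z) with h | h
  · refine ⟨w, by linarith, ?_⟩
    rcases gfold_cases hz w with ⟨h1, h2⟩ | ⟨h1, h2⟩ | ⟨h1, h2⟩ <;> rw [h2]
    · rw [abs_le] at h; linarith
    · rw [abs_le] at h; linarith
  · rcases le_total 0 w with hw0 | hw0
    · rw [abs_of_nonneg hw0] at h
      refine ⟨2 * w - (1 - z), by rw [abs_le]; constructor <;> linarith, ?_⟩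
      rcases gfold_cases hz (2 * w - (1 - z)) with ⟨h1, h2⟩ | ⟨h1, h2⟩ | ⟨h1, h2⟩ <;> rw [h2]
      · rw [abs_le] at h1; linarith
      · ring
      · linarith
    · rw [abs_of_nonpos hw0] at h
      refine ⟨2 * w + (1 - z), by rw [abs_le]; constructor <;> linarith, ?_⟩
      rcases gfold_cases hz (2 * w + (1 - z)) with ⟨h1, h2⟩ | ⟨h1, h2⟩ | ⟨h1, h2⟩ <;> rw [h2]
      · rw [abs_le] at h1; linarith
      · linarith
      · ring

/-- unfolding of the upper hemisphere -/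
noncomputable def unfold3 (v : Fin 3 → ℝ) : Fin 2 → ℝ := ![gfold (v 2) (v 0), gfold (v 2) (v 1)]

theorem continuous_unfold3 : Continuous unfold3 := by
  unfold unfold3 gfold
  refine continuous_pi fun i => ?_
  fin_cases i
  · show Continuous fun v : Fin 3 → ℝ => max (-((|v 0| + 1 - v 2) / 2))
      (min ((|v 0| + 1 - v 2) / 2) (v 0))
    fun_prop
  · show Continuous fun v : Fin 3 → ℝ => max (-((|v 1| + 1 - v 2) / 2))
      (min ((|v 1| + 1 - v 2) / 2) (v 1))
    fun_prop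

theorem conicalOn_gfold {X : Set (Fin 3 → ℝ)} (hX : ConicalSet X) (i : Fin 3) :
    ConicalOn (fun v => gfold (v 2) (v i)) X := by
  have hi := conicalOn_coord hX i
  have h2 := conicalOn_coord hX 2
  have hm : ConicalOn (fun v : Fin 3 → ℝ => (|v i| + 1 - v 2) / 2) X := by
    refine (((hi.rabs (by fun_prop)).add (conicalOn_const 1 hX)).sub h2).const_smul (1 / 2)
      |>.congr fun v _ => ?_
    simp only [smul_eq_mul]
    ring
  have hmc : ContinuousOn (fun v : Fin 3 → ℝ => (|v i| + 1 - v 2) / 2) X := by fun_prop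
  exact hm.neg.rmax (hm.rmin hi hmc (by fun_prop)) (by fun_prop) (by fun_prop)

theorem conicalOn_unfold3 {X : Set (Fin 3 → ℝ)} (hX : ConicalSet X) : ConicalOn unfold3 X := by
  intro x hx
  refine conicalWithinAt_pi (hX x hx) fun i => ?_
  fin_cases i
  · exact conicalOn_gfold hX 0 x hx
  · exact conicalOn_gfold hX 1 x hx

/-- closed upper hemisphere of the cubical sphere -/
def upperHemi : Set (Fin 3 → ℝ) := sphere 0 1 ∩ {v | 0 ≤ v 2}

/-- closed lower hemisphere -/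
def lowerHemi : Set (Fin 3 → ℝ) := sphere 0 1 ∩ {v | v 2 ≤ 0}

/-- the equator -/
def equator3 : Set (Fin 3 → ℝ) := sphere 0 1 ∩ {v | v 2 = 0}

theorem conicalSet_upperHemi : ConicalSet upperHemi := by
  have h1 : LocCone {v : Fin 3 → ℝ | 0 ≤ v 2} :=
    locCone_setOf_ge (by fun_prop) (conicalOn_coord locCone_univ.conicalSet 2) 0
  exact (conicalSet_sphere_pi 3).inter h1.conicalSet

theorem unfold3_injOn : InjOn unfold3 upperHemi := by
  intro v hv w hw h
  have e0 : gfold (v 2) (v 0) = gfold (w 2) (w 0) := congrFun h 0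
  have e1 : gfold (v 2) (v 1) = gfold (w 2) (w 1) := congrFun h 1
  obtain ⟨hv1, hv2⟩ := hv
  obtain ⟨hw1, hw2⟩ := hw
  rw [mem_sphere_fin3] at hv1 hw1
  obtain ⟨a0, a1, a2, a3⟩ := hv1
  obtain ⟨b0, b1, b2, b3⟩ := hw1
  have hv2' : (0:ℝ) ≤ v 2 := hv2
  have hw2' : (0:ℝ) ≤ w 2 := hw2
  rw [abs_of_nonneg hv2'] at a2 a3
  rw [abs_of_nonneg hw2'] at b2 b3
  have hz : v 2 = w 2 := by
    have u0 := gfold_abs_le hv2' a2 a0
    have u1 := gfold_abs_le hv2' a2 a1
    have w0 := gfold_abs_le hw2' b2 b0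
    have w1 := gfold_abs_le hw2' b2 b1
    have key1 : w 2 ≤ v 2 := by
      rcases a3 with a3 | a3 | a3
      · have := gfold_abs_eq hv2' a2 a3
        rw [e0] at this; linarith
      · have := gfold_abs_eq hv2' a2 a3
        rw [e1] at this; linarith
      · linarith
    have key2 : v 2 ≤ w 2 := by
      rcases b3 with b3 | b3 | b3
      · have := gfold_abs_eq hw2' b2 b3
        rw [← e0] at this; linarith
      · have := gfold_abs_eq hw2' b2 b3
        rw [← e1] at this; linarith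
      · linarith
    exact le_antisymm key2 key1
  rw [hz] at e0 e1
  have f0 := gfold_inj b2 e0
  have f1 := gfold_inj b2 e1
  funext i
  fin_cases i
  · exact f0
  · exact f1
  · exact hz

theorem mem_closedBall_fin2 (w : Fin 2 → ℝ) : w ∈ closedBall (0 : Fin 2 → ℝ) 1 ↔
    |w 0| ≤ 1 ∧ |w 1| ≤ 1 := by
  rw [mem_closedBall_zero_iff, pi_norm_le_iff_of_nonneg zero_le_one]
  constructor
  · intro h; exact ⟨h 0, h 1⟩
  · rintro ⟨h0, h1⟩ i
    fin_cases i
    · exact h0
    · exact h1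

theorem unfold3_image : unfold3 '' upperHemi = closedBall (0 : Fin 2 → ℝ) 1 := by
  apply Subset.antisymm
  · rintro _ ⟨v, ⟨hv, hv2⟩, rfl⟩
    rw [mem_sphere_fin3] at hv
    obtain ⟨a0, a1, a2, a3⟩ := hv
    have hv2' : (0:ℝ) ≤ v 2 := hv2
    rw [abs_of_nonneg hv2'] at a2
    rw [mem_closedBall_fin2]
    have u0 := gfold_abs_le hv2' a2 a0
    have u1 := gfold_abs_le hv2' a2 a1
    exact ⟨u0.trans (by linarith), u1.trans (by linarith)⟩
  · intro w hw
    rw [mem_closedBall_fin2] at hw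
    obtain ⟨h0, h1⟩ := hw
    have hρ : max |w 0| |w 1| ≤ 1 := max_le h0 h1
    rcases le_total (max |w 0| |w 1|) (1 / 2) with h | h
    · have k0 := (le_max_left |w 0| |w 1|).trans h
      have k1 := (le_max_right |w 0| |w 1|).trans h
      obtain ⟨y0, hy0, e0⟩ := gfold_surj zero_le_one le_rfl (w := w 0) (by linarith)
      obtain ⟨y1, hy1, e1⟩ := gfold_surj zero_le_one le_rfl (w := w 1) (by linarith)
      refine ⟨![y0, y1, 1], ⟨?_, ?_⟩, ?_⟩
      · rw [mem_sphere_fin3]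
        exact ⟨hy0, hy1, by simp, Or.inr (Or.inr (by simp))⟩
      · show (0:ℝ) ≤ 1
        norm_num
      · funext i
        fin_cases i
        · exact e0
        · exact e1
    · set ρ := max |w 0| |w 1| with hρd
      have k0 : |w 0| ≤ ρ := le_max_left _ _
      have k1 : |w 1| ≤ ρ := le_max_right _ _
      have hz0 : (0:ℝ) ≤ 2 - 2 * ρ := by linarith
      have hz1 : 2 - 2 * ρ ≤ 1 := by linarith
      have hzz : 1 - (2 - 2 * ρ) / 2 = ρ := by ring
      obtain ⟨y0, hy0, e0⟩ := gfold_surj hz0 hz1 (w := w 0) (by rw [hzz]; exact k0)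
      obtain ⟨y1, hy1, e1⟩ := gfold_surj hz0 hz1 (w := w 1) (by rw [hzz]; exact k1)
      refine ⟨![y0, y1, 2 - 2 * ρ], ⟨?_, ?_⟩, ?_⟩
      · rw [mem_sphere_fin3]
        refine ⟨hy0, hy1, ?_, ?_⟩
        · show |2 - 2 * ρ| ≤ 1
          rw [abs_of_nonneg hz0]; exact hz1
        · rcases hz1.lt_or_eq with hlt | heq
          · rcases max_choice |w 0| |w 1| with hm | hm
            · left
              show |y0| = 1
              refine gfold_abs_eq' hz0 hlt hy0 ?_
              rw [e0, hzz, hρd, hm]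
            · right; left
              show |y1| = 1
              refine gfold_abs_eq' hz0 hlt hy1 ?_
              rw [e1, hzz, hρd, hm]
          · right; right
            show |2 - 2 * ρ| = 1
            rw [heq, abs_one]
      · exact hz0
      · funext i
        fin_cases i
        · exact e0
        · exact e1

theorem isCompact_upperHemi : IsCompact upperHemi :=
  (isCompact_sphere _ _).inter_right (isClosed_le continuous_const (continuous_apply 2))

/-- the closed upper hemisphere is a conical disc with boundary the equator -/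
theorem conBall_upperHemi : ConBall 2 upperHemi equator3 := by
  refine ⟨fun v hv => ⟨hv.1, (show v 2 = 0 from hv.2).ge⟩,
    ConHomeo.ofCompact isCompact_upperHemi unfold3 continuous_unfold3.continuousOn unfold3_injOn
      (conicalOn_unfold3 conicalSet_upperHemi) unfold3_image, ?_⟩
  rw [ConHomeo.ofCompact_toFun]
  apply Subset.antisymm
  · rintro _ ⟨v, ⟨hv, hv2⟩, rfl⟩
    have hz : v 2 = 0 := hv2
    rw [mem_sphere_fin3] at hv
    obtain ⟨a0, a1, a2, a3⟩ := hv
    rw [mem_sphere_fin2]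
    have u0 := gfold_abs_le (z := v 2) hz.ge (by linarith) a0
    have u1 := gfold_abs_le (z := v 2) hz.ge (by linarith) a1
    refine ⟨u0.trans (by linarith), u1.trans (by linarith), ?_⟩
    rcases a3 with a3 | a3 | a3
    · left
      have := gfold_abs_eq (z := v 2) hz.ge (by linarith) a3
      rw [hz, zero_div, sub_zero] at this
      show |gfold (v 2) (v 0)| = 1
      rw [hz]; exact this
    · right
      have := gfold_abs_eq (z := v 2) hz.ge (by linarith) a3
      rw [hz, zero_div, sub_zero] at this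
      show |gfold (v 2) (v 1)| = 1
      rw [hz]; exact this
    · rw [hz, abs_zero] at a3
      exact absurd a3 zero_ne_one
  · intro w hw
    have hw' : w ∈ closedBall (0 : Fin 2 → ℝ) 1 := sphere_subset_closedBall hw
    rw [← unfold3_image] at hw'
    obtain ⟨v, hv, rfl⟩ := hw'
    refine ⟨v, ⟨hv.1, ?_⟩, rfl⟩
    obtain ⟨hv1, hv2⟩ := hv
    rw [mem_sphere_fin3] at hv1
    obtain ⟨a0, a1, a2, a3⟩ := hv1
    have hv2' : (0:ℝ) ≤ v 2 := hv2
    rw [abs_of_nonneg hv2'] at a2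
    rw [mem_sphere_fin2] at hw
    have u0 := gfold_abs_le hv2' a2 a0
    have u1 := gfold_abs_le hv2' a2 a1
    show v 2 = 0
    rcases hw.2.2 with h | h
    · have : |gfold (v 2) (v 0)| = 1 := h
      linarith
    · have : |gfold (v 2) (v 1)| = 1 := h
      linarith

/-- reflection in the horizontal plane -/
noncomputable def refl3 : (Fin 3 → ℝ) →ₗ[ℝ] (Fin 3 → ℝ) where
  toFun v := ![v 0, v 1, -v 2]
  map_add' v w := by
    funext i; fin_cases i <;> simp [add_comm]
  map_smul' c v := by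
    funext i; fin_cases i <;> simp

theorem refl3_refl3 (v : Fin 3 → ℝ) : refl3 (refl3 v) = v := by
  funext i; fin_cases i <;> simp [refl3]

theorem refl3_mem_sphere {v : Fin 3 → ℝ} (hv : v ∈ sphere (0 : Fin 3 → ℝ) 1) :
    refl3 v ∈ sphere (0 : Fin 3 → ℝ) 1 := by
  rw [mem_sphere_fin3] at hv ⊢
  show |v 0| ≤ 1 ∧ |v 1| ≤ 1 ∧ |-v 2| ≤ 1 ∧ (|v 0| = 1 ∨ |v 1| = 1 ∨ |-v 2| = 1)
  rw [abs_neg]; exact hv

theorem refl3_image_upper : refl3 '' upperHemi = lowerHemi := by
  apply Subset.antisymm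
  · rintro _ ⟨v, ⟨h1, h2⟩, rfl⟩
    refine ⟨refl3_mem_sphere h1, ?_⟩
    show -v 2 ≤ 0
    have : (0:ℝ) ≤ v 2 := h2
    linarith
  · rintro v ⟨h1, h2⟩
    refine ⟨refl3 v, ⟨refl3_mem_sphere h1, ?_⟩, refl3_refl3 v⟩
    show (0:ℝ) ≤ -v 2
    have : v 2 ≤ 0 := h2
    linarith

theorem refl3_image_equator : refl3 '' equator3 = equator3 := by
  have h : ∀ v ∈ equator3, refl3 v ∈ equator3 := by
    rintro v ⟨h1, h2⟩
    refine ⟨refl3_mem_sphere h1, ?_⟩
    show -v 2 = 0
    have : v 2 = 0 := h2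
    linarith
  apply Subset.antisymm
  · rintro _ ⟨v, hv, rfl⟩; exact h v hv
  · intro v hv; exact ⟨refl3 v, h v hv, refl3_refl3 v⟩

theorem conBall_lowerHemi : ConBall 2 lowerHemi equator3 := by
  have hi : InjOn (fun v => refl3 v) upperHemi :=
    fun v _ w _ h => by rw [← refl3_refl3 v, (show refl3 v = refl3 w from h), refl3_refl3]
  have h := conBall_upperHemi.image (ConHomeo.ofCompact isCompact_upperHemi (fun v => refl3 v)
    (refl3.continuous_of_finiteDimensional).continuousOn hi (conicalOn_linear refl3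
      conicalSet_upperHemi) rfl) (le_refl _)
  rw [ConHomeo.ofCompact_toFun] at h
  have h1 : (fun v => refl3 v) '' upperHemi = lowerHemi := refl3_image_upper
  have h2 : (fun v => refl3 v) '' equator3 = equator3 := refl3_image_equator
  rw [h1, h2] at h
  exact h

/-- the equator form of Jordan-Schoenflies on the standard sphere -/
def SphEq : Prop := ∀ γ ⊆ sphere (0 : Fin 3 → ℝ) 1, ConSphere 1 γ →
  ∃ ψ : ConHomeo (sphere (0 : Fin 3 → ℝ) 1) (sphere (0 : Fin 3 → ℝ) 1), ψ.toFun '' γ = equator3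

theorem SphEq.jordanSch (h : SphEq) : JordanSch 2 (sphere (0 : Fin 3 → ℝ) 1) := by
  intro γ hγ hs
  obtain ⟨ψ, hψ⟩ := h γ hγ hs
  have hinv : ψ.invFun '' equator3 = γ := by
    rw [← hψ, image_image]
    have : ∀ x ∈ γ, ψ.invFun (ψ.toFun x) = x := fun x hx => ψ.left_inv (hγ hx)
    rw [image_congr this, image_id']
  have hγiff : ∀ x ∈ sphere (0 : Fin 3 → ℝ) 1, (x ∈ γ ↔ ψ.toFun x 2 = 0) := by
    intro x hx
    constructor
    · intro h
      have : ψ.toFun x ∈ equator3 := hψ ▸ mem_image_of_mem _ h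
      exact this.2
    · intro h
      have : ψ.toFun x ∈ equator3 := ⟨ψ.mapsTo hx, h⟩
      rw [← hinv]
      exact ⟨_, this, ψ.left_inv hx⟩
  have hun : ∀ (P : ℝ → Prop), (∀ t, P t → t ≠ 0) →
      (sphere (0 : Fin 3 → ℝ) 1 ∩ {x | P (ψ.toFun x 2)}) ∪ γ =
        ψ.invFun '' (sphere (0 : Fin 3 → ℝ) 1 ∩ {v | P (v 2) ∨ v 2 = 0}) := by
    intro P _
    ext x
    constructor
    · rintro (⟨h1, h2⟩ | h1)
      · exact ⟨ψ.toFun x, ⟨ψ.mapsTo h1, Or.inl h2⟩, ψ.left_inv h1⟩
      · exact ⟨ψ.toFun x, ⟨ψ.mapsTo (hγ h1), Or.inr ((hγiff x (hγ h1)).1 h1)⟩,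
          ψ.left_inv (hγ h1)⟩
    · rintro ⟨v, ⟨h1, h2⟩, rfl⟩
      have h3 := ψ.right_inv h1
      rcases h2 with h2 | h2
      · left
        refine ⟨ψ.mapsTo_inv h1, ?_⟩
        show P (ψ.toFun (ψ.invFun v) 2)
        rw [h3]; exact h2
      · right
        rw [hγiff _ (ψ.mapsTo_inv h1), h3]
        exact h2
  have hupper : sphere (0 : Fin 3 → ℝ) 1 ∩ {v | 0 < v 2 ∨ v 2 = 0} = upperHemi := by
    ext v
    refine and_congr_right fun _ => ?_
    show 0 < v 2 ∨ v 2 = 0 ↔ 0 ≤ v 2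
    rw [le_iff_lt_or_eq]
    exact or_congr_right eq_comm
  have hlower : sphere (0 : Fin 3 → ℝ) 1 ∩ {v | v 2 < 0 ∨ v 2 = 0} = lowerHemi := by
    ext v
    refine and_congr_right fun _ => ?_
    show v 2 < 0 ∨ v 2 = 0 ↔ v 2 ≤ 0
    rw [le_iff_lt_or_eq]
  refine ⟨sphere (0 : Fin 3 → ℝ) 1 ∩ {x | 0 < ψ.toFun x 2},
    sphere (0 : Fin 3 → ℝ) 1 ∩ {x | ψ.toFun x 2 < 0}, ?_, ?_, ?_, ?_, ?_, ?_⟩
  · rw [Set.disjoint_left]
    rintro x ⟨-, h1⟩ ⟨-, h2⟩
    exact lt_asymm (show 0 < ψ.toFun x 2 from h1) h2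
  · ext x
    constructor
    · rintro (⟨h1, h2⟩ | ⟨h1, h2⟩)
      · exact ⟨h1, fun h => (ne_of_gt h2) ((hγiff x h1).1 h)⟩
      · exact ⟨h1, fun h => (ne_of_lt h2) ((hγiff x h1).1 h)⟩
    · rintro ⟨h1, h2⟩
      rw [hγiff x h1] at h2
      rcases lt_or_gt_of_ne h2 with h3 | h3
      · exact Or.inr ⟨h1, h3⟩
      · exact Or.inl ⟨h1, h3⟩
  · have hp : (![0, 0, 1] : Fin 3 → ℝ) ∈ sphere (0 : Fin 3 → ℝ) 1 := by
      rw [mem_sphere_fin3]; simp
    refine ⟨ψ.invFun ![0, 0, 1], ψ.mapsTo_inv hp, ?_⟩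
    show 0 < ψ.toFun (ψ.invFun ![0, 0, 1]) 2
    rw [ψ.right_inv hp]; simp
  · have hp : (![0, 0, -1] : Fin 3 → ℝ) ∈ sphere (0 : Fin 3 → ℝ) 1 := by
      rw [mem_sphere_fin3]; simp
    refine ⟨ψ.invFun ![0, 0, -1], ψ.mapsTo_inv hp, ?_⟩
    show ψ.toFun (ψ.invFun ![0, 0, -1]) 2 < 0
    rw [ψ.right_inv hp]; simp
  · rw [hun (fun t => 0 < t) (fun t ht => ht.ne'), hupper]
    have := conBall_upperHemi.image ψ.symm (fun v hv => hv.1)
    rw [← hinv]
    exact this
  · rw [hun (fun t => t < 0) (fun t ht => ht.ne), hlower]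
    have := conBall_lowerHemi.image ψ.symm (fun v hv => hv.1)
    rw [← hinv]
    exact this

end P073
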