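import Vale.Agent.P073.PR.Hemi

/-!
# P073, block PR: boxes and rectangles are conical balls
-/

open Set Metric Topology Filter

namespace P073

variable {E F : Type*} [NormedAddCommGroup E] [NormedSpace ℝ E]
  [NormedAddCommGroup F] [NormedSpace ℝ F]

/-- the standard conical ball -/
theorem conBall_std (n : ℕ) : ConBall n (closedBall (0 : Fin n → ℝ) 1) (sphere 0 1) :=
  ⟨sphere_subset_closedBall, ConHomeo.refl (locCone_closedBall_pi n 1).conicalSet, by
    show (fun x => x) '' _ = _
    simp⟩

/-- image of a conical ball under an injective affine continuous map -/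
theorem ConBall.image_affine {n : ℕ} {C B : Set E} (h : ConBall n C B) (L : E →ᵃ[ℝ] F)
    (hL : Function.Injective L) (hc : Continuous L) : ConBall n (L '' C) (L '' B) := by
  have h1 := h.image (ConHomeo.ofCompact h.isCompact (fun x => L x) hc.continuousOn
    (hL.injOn) (conicalOn_of_affine L h.conicalSet) rfl) (le_refl _)
  rw [ConHomeo.ofCompact_toFun] at h1
  exact h1

/-- coordinatewise affine map sending `[-1,1]^n` to `Icc a b` -/
noncomputable def boxMap {n : ℕ} (a b : Fin n → ℝ) : (Fin n → ℝ) →ᵃ[ℝ] (Fin n → ℝ) where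
  toFun v i := (b i - a i) / 2 * v i + (a i + b i) / 2
  linear :=
    { toFun := fun v i => (b i - a i) / 2 * v i
      map_add' := fun v w => by funext i; simp [mul_add]
      map_smul' := fun c v => by funext i; simp; ring }
  map_vadd' := fun v w => by funext i; simp; ring

theorem boxMap_apply {n : ℕ} (a b : Fin n → ℝ) (v : Fin n → ℝ) (i : Fin n) :
    boxMap a b v i = (b i - a i) / 2 * v i + (a i + b i) / 2 := rfl

theorem boxMap_injective {n : ℕ} {a b : Fin n → ℝ} (hab : ∀ i, a i < b i) :
    Function.Injective (boxMap a b) := by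
  intro v w h
  funext i
  have h1 := congrFun h i
  rw [boxMap_apply, boxMap_apply] at h1
  have h2 : (b i - a i) / 2 ≠ 0 := by
    have := hab i
    have : 0 < (b i - a i) / 2 := by linarith
    exact this.ne'
  exact mul_left_cancel₀ h2 (by linarith)

theorem boxMap_image {n : ℕ} {a b : Fin n → ℝ} (hab : ∀ i, a i < b i) :
    boxMap a b '' closedBall 0 1 = Icc a b := by
  apply Subset.antisymm
  · rintro _ ⟨v, hv, rfl⟩
    rw [mem_closedBall_zero_iff, pi_norm_le_iff_of_nonneg zero_le_one] at hv
    constructor <;> intro i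
    · have h1 := (abs_le.1 (hv i)).1
      rw [boxMap_apply]
      nlinarith [hab i]
    · have h1 := (abs_le.1 (hv i)).2
      rw [boxMap_apply]
      nlinarith [hab i]
  · intro w hw
    refine ⟨fun i => (w i - (a i + b i) / 2) / ((b i - a i) / 2), ?_, ?_⟩
    · rw [mem_closedBall_zero_iff, pi_norm_le_iff_of_nonneg zero_le_one]
      intro i
      have h1 : 0 < (b i - a i) / 2 := by linarith [hab i]
      rw [Real.norm_eq_abs, abs_le, le_div_iff₀ h1, div_le_one h1]
      constructor <;> linarith [hw.1 i, hw.2 i]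
    · funext i
      have h1 : (b i - a i) / 2 ≠ 0 := by
        have : 0 < (b i - a i) / 2 := by linarith [hab i]
        exact this.ne'
      rw [boxMap_apply, mul_div_cancel₀ _ h1]
      ring

theorem boxMap_isHomeo {n : ℕ} {a b : Fin n → ℝ} (hab : ∀ i, a i < b i) (s : Set (Fin n → ℝ)) :
    boxMap a b '' interior s = interior (boxMap a b '' s) := by
  have hc : Continuous (boxMap a b) := by
    refine continuous_pi fun i => ?_
    simp only [boxMap_apply]
    fun_prop
  let e : (Fin n → ℝ) ≃ₜ (Fin n → ℝ) :=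
    { toFun := boxMap a b
      invFun := fun w i => (w i - (a i + b i) / 2) / ((b i - a i) / 2)
      left_inv := fun v => by
        funext i
        have h1 : (b i - a i) / 2 ≠ 0 := by
          have : 0 < (b i - a i) / 2 := by linarith [hab i]
          exact this.ne'
        show (boxMap a b v i - (a i + b i) / 2) / ((b i - a i) / 2) = v i
        rw [boxMap_apply, add_sub_cancel_right, mul_div_cancel_left₀ _ h1]
      right_inv := fun w => by
        funext i
        have h1 : (b i - a i) / 2 ≠ 0 := by
          have : 0 < (b i - a i) / 2 := by linarith [hab i]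
          exact this.ne'
        show boxMap a b (fun i => (w i - (a i + b i) / 2) / ((b i - a i) / 2)) i = w i
        rw [boxMap_apply, mul_div_cancel₀ _ h1]
        ring
      continuous_toFun := hc
      continuous_invFun := by fun_prop }
  exact e.image_interior s

theorem boxMap_sphere {n : ℕ} (hn : n ≠ 0) {a b : Fin n → ℝ} (hab : ∀ i, a i < b i) :
    boxMap a b '' sphere 0 1 = frontier (Icc a b) := by
  have : Nonempty (Fin n) := ⟨⟨0, Nat.pos_of_ne_zero hn⟩⟩
  rw [← frontier_closedBall _ one_ne_zero, isClosed_closedBall.frontier_eq,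
    isClosed_Icc.frontier_eq, image_sdiff (boxMap_injective hab), boxMap_isHomeo hab,
    boxMap_image hab]

/-- **Boxes**: a nondegenerate box is a conical ball with boundary its frontier. -/
theorem conBall_Icc_pi {n : ℕ} (hn : n ≠ 0) {a b : Fin n → ℝ} (hab : ∀ i, a i < b i) :
    ConBall n (Icc a b) (frontier (Icc a b)) := by
  have hc : Continuous (boxMap a b) := by
    refine continuous_pi fun i => ?_
    simp only [boxMap_apply]
    fun_prop
  have := (conBall_std n).image_affine (boxMap a b) (boxMap_injective hab) hc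
  rwa [boxMap_image hab, boxMap_sphere hn hab] at this

/-- the face of a box in `R³`, as the image of a rectangle: coordinates `i`, `j` free. -/
noncomputable def faceMap (i j : Fin 3) (p : Fin 3 → ℝ) :
    (Fin 2 → ℝ) →ᵃ[ℝ] (Fin 3 → ℝ) where
  toFun v k := if k = i then v 0 else if k = j then v 1 else p k
  linear :=
    { toFun := fun v k => if k = i then v 0 else if k = j then v 1 else 0
      map_add' := fun v w => by
        funext k; simp only [Pi.add_apply]; split_ifs <;> simp
      map_smul' := fun c v => by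
        funext k; simp only [Pi.smul_apply, RingHom.id_apply]; split_ifs <;> simp }
  map_vadd' := fun v w => by
    funext k
    simp only [vadd_eq_add, Pi.add_apply, LinearMap.coe_mk, AddHom.coe_mk]
    split_ifs <;> simp

theorem faceMap_apply (i j : Fin 3) (p : Fin 3 → ℝ) (v : Fin 2 → ℝ) (k : Fin 3) :
    faceMap i j p v k = if k = i then v 0 else if k = j then v 1 else p k := rfl

theorem faceMap_injective {i j : Fin 3} (hij : i ≠ j) (p : Fin 3 → ℝ) :
    Function.Injective (faceMap i j p) := by
  intro v w h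
  have h0 := congrFun h i
  have h1 := congrFun h j
  simp only [faceMap_apply, if_true, if_neg hij.symm] at h0 h1
  funext k
  fin_cases k
  · exact h0
  · exact h1

theorem continuous_faceMap (i j : Fin 3) (p : Fin 3 → ℝ) : Continuous (faceMap i j p) := by
  refine continuous_pi fun k => ?_
  simp only [faceMap_apply]
  split_ifs <;> fun_prop

/-- a non-degenerate rectangle in `R³` in the directions `i`, `j` through `p` is a conical disc -/
theorem conBall_face {i j : Fin 3} (hij : i ≠ j) (p : Fin 3 → ℝ) {a b : Fin 2 → ℝ}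
    (hab : ∀ l, a l < b l) :
    ConBall 2 (faceMap i j p '' Icc a b) (faceMap i j p '' frontier (Icc a b)) :=
  (conBall_Icc_pi two_ne_zero hab).image_affine _ (faceMap_injective hij p)
    (continuous_faceMap i j p)

theorem faceMap_image_Icc {i j : Fin 3} (hij : i ≠ j) (p : Fin 3 → ℝ) (a b : Fin 2 → ℝ) :
    faceMap i j p '' Icc a b = {x | x i ∈ Icc (a 0) (b 0) ∧ x j ∈ Icc (a 1) (b 1) ∧
      ∀ k, k ≠ i → k ≠ j → x k = p k} := by
  ext x
  constructor
  · rintro ⟨v, hv, rfl⟩
    refine ⟨?_, ?_, fun k hi hj => ?_⟩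
    · rw [faceMap_apply, if_pos rfl]; exact ⟨hv.1 0, hv.2 0⟩
    · rw [faceMap_apply, if_neg hij.symm, if_pos rfl]; exact ⟨hv.1 1, hv.2 1⟩
    · rw [faceMap_apply, if_neg hi, if_neg hj]
  · rintro ⟨h0, h1, h2⟩
    refine ⟨![x i, x j], ⟨?_, ?_⟩, ?_⟩
    · intro l; fin_cases l
      · exact h0.1
      · exact h1.1
    · intro l; fin_cases l
      · exact h0.2
      · exact h1.2
    · funext k
      rw [faceMap_apply]
      split_ifs with hi hj
      · rw [hi]; rfl
      · rw [hj]; rfl
      · exact (h2 k hi hj).symm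

theorem frontier_Icc_fin2 (a b : Fin 2 → ℝ) :
    frontier (Icc a b) = {v | v ∈ Icc a b ∧ (v 0 = a 0 ∨ v 0 = b 0 ∨ v 1 = a 1 ∨ v 1 = b 1)} := by
  rw [isClosed_Icc.frontier_eq]
  have hint : interior (Icc a b) = {v | a 0 < v 0 ∧ v 0 < b 0 ∧ a 1 < v 1 ∧ v 1 < b 1} := by
    rw [← Set.pi_univ_Icc, interior_pi_set (finite_univ)]
    ext v
    simp only [interior_Icc, Set.mem_pi, mem_univ, forall_true_left, Fin.forall_fin_two, mem_Ioo]
    exact ⟨fun h => ⟨h.1.1, h.1.2, h.2.1, h.2.2⟩, fun h => ⟨⟨h.1, h.2.1⟩, h.2.2.1, h.2.2.2⟩⟩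
  rw [hint]
  ext v
  refine and_congr_right fun hv => ?_
  show ¬ (a 0 < v 0 ∧ v 0 < b 0 ∧ a 1 < v 1 ∧ v 1 < b 1) ↔ _
  simp only [not_and_or, not_lt]
  have a0 := hv.1 0; have a1 := hv.1 1; have b0 := hv.2 0; have b1 := hv.2 1
  constructor
  · rintro (h | h | h | h)
    · exact Or.inl (le_antisymm h a0)
    · exact Or.inr (Or.inl (le_antisymm b0 h))
    · exact Or.inr (Or.inr (Or.inl (le_antisymm h a1)))
    · exact Or.inr (Or.inr (Or.inr (le_antisymm b1 h)))
  · rintro (h | h | h | h)
    · exact Or.inl h.le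
    · exact Or.inr (Or.inl h.ge)
    · exact Or.inr (Or.inr (Or.inl h.le))
    · exact Or.inr (Or.inr (Or.inr h.ge))

end P073
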