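import Vale.Agent.P073.PR.Faces

/-!
# P073, block PR: hemispheres of the cubical sphere in every dimension; cones over conical balls;
cutting a conical ball along a disc; union of two conical balls along a disc
-/

open Set Metric Topology Filter

namespace P073

variable {E F : Type*} [NormedAddCommGroup E] [NormedSpace ℝ E]
  [NormedAddCommGroup F] [NormedSpace ℝ F]

theorem mem_closedBall_pi' {n : ℕ} (v : Fin n → ℝ) :
    v ∈ closedBall (0 : Fin n → ℝ) 1 ↔ ∀ i, |v i| ≤ 1 := by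
  rw [mem_closedBall_zero_iff, pi_norm_le_iff_of_nonneg zero_le_one]
  rfl

theorem mem_sphere_pi' {n : ℕ} (v : Fin n → ℝ) :
    v ∈ sphere (0 : Fin n → ℝ) 1 ↔ (∀ i, |v i| ≤ 1) ∧ ∃ i, |v i| = 1 := by
  constructor
  · intro h
    have hb := (mem_closedBall_pi' v).1 (sphere_subset_closedBall h)
    refine ⟨hb, ?_⟩
    by_contra hcon
    push Not at hcon
    rw [mem_sphere_zero_iff_norm] at h
    have h2 : ‖v‖ < 1 := by
      rw [pi_norm_lt_iff one_pos]
      exact fun i => lt_of_le_of_ne (hb i) (hcon i)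
    linarith
  · rintro ⟨h1, i, hi⟩
    rw [mem_sphere_zero_iff_norm]
    apply le_antisymm
    · rw [← mem_closedBall_zero_iff]; exact (mem_closedBall_pi' v).2 h1
    · rw [← hi]; exact norm_le_pi_norm v i

/-- closed upper hemisphere -/
def hemiU (n : ℕ) : Set (Fin (n + 1) → ℝ) := sphere 0 1 ∩ {v | 0 ≤ v 0}

/-- closed lower hemisphere -/
def hemiD (n : ℕ) : Set (Fin (n + 1) → ℝ) := sphere 0 1 ∩ {v | v 0 ≤ 0}

/-- the equator -/
def eqN (n : ℕ) : Set (Fin (n + 1) → ℝ) := sphere 0 1 ∩ {v | v 0 = 0}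

/-- the equatorial disc -/
def eqDisc (n : ℕ) : Set (Fin (n + 1) → ℝ) := closedBall 0 1 ∩ {v | v 0 = 0}

/-- closed upper half ball -/
def halfU (n : ℕ) : Set (Fin (n + 1) → ℝ) := closedBall 0 1 ∩ {v | 0 ≤ v 0}

/-- closed lower half ball -/
def halfD (n : ℕ) : Set (Fin (n + 1) → ℝ) := closedBall 0 1 ∩ {v | v 0 ≤ 0}

/-- unfolding of the upper hemisphere -/
noncomputable def unfoldN {n : ℕ} (v : Fin (n + 1) → ℝ) : Fin n → ℝ :=
  fun i => gfold (v 0) (v i.succ)

theorem continuous_unfoldN {n : ℕ} : Continuous (unfoldN (n := n)) := by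
  refine continuous_pi fun i => ?_
  show Continuous fun v : Fin (n + 1) → ℝ => max (-((|v i.succ| + 1 - v 0) / 2))
      (min ((|v i.succ| + 1 - v 0) / 2) (v i.succ))
  fun_prop

theorem conicalOn_unfoldN {n : ℕ} {X : Set (Fin (n + 1) → ℝ)} (hX : ConicalSet X) :
    ConicalOn unfoldN X := by
  intro x hx
  refine conicalWithinAt_pi (hX x hx) fun i => ?_
  have hi := conicalOn_coord hX i.succ
  have h2 := conicalOn_coord hX 0
  have hm : ConicalOn (fun v : Fin (n + 1) → ℝ => (|v i.succ| + 1 - v 0) / 2) X := by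
    refine (((hi.rabs (by fun_prop)).add (conicalOn_const 1 hX)).sub h2).const_smul (1 / 2)
      |>.congr fun v _ => ?_
    simp only [smul_eq_mul]
    ring
  have hmc : ContinuousOn (fun v : Fin (n + 1) → ℝ => (|v i.succ| + 1 - v 0) / 2) X := by
    fun_prop
  exact (hm.neg.rmax (hm.rmin hi hmc (by fun_prop)) (by fun_prop) (by fun_prop)) x hx

theorem conicalSet_hemiU (n : ℕ) : ConicalSet (hemiU n) := by
  have h1 : LocCone {v : Fin (n + 1) → ℝ | 0 ≤ v 0} :=
    locCone_setOf_ge (by fun_prop) (conicalOn_coord locCone_univ.conicalSet 0) 0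
  exact (conicalSet_sphere_pi (n + 1)).inter h1.conicalSet

theorem isCompact_hemiU (n : ℕ) : IsCompact (hemiU n) :=
  (isCompact_sphere _ _).inter_right (isClosed_le continuous_const (continuous_apply 0))

theorem unfoldN_injOn (n : ℕ) : InjOn unfoldN (hemiU n) := by
  have hz : ∀ v ∈ hemiU n, ∀ w ∈ hemiU n, unfoldN v = unfoldN w → w 0 ≤ v 0 := by
    rintro v ⟨hv1, hv2⟩ w ⟨hw1, hw2⟩ h
    rw [mem_sphere_pi'] at hv1 hw1
    have hv0 : (0:ℝ) ≤ v 0 := hv2
    have hw0 : (0:ℝ) ≤ w 0 := hw2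
    have hv01 : v 0 ≤ 1 := (le_abs_self _).trans (hv1.1 0)
    have hw01 : w 0 ≤ 1 := (le_abs_self _).trans (hw1.1 0)
    obtain ⟨i, hi⟩ := hv1.2
    refine Fin.cases ?_ (fun j => ?_) i (motive := fun i => |v i| = 1 → w 0 ≤ v 0) hi
    · intro h0
      rw [abs_of_nonneg hv0] at h0
      linarith
    · intro hj
      have e := congrFun h j
      have e1 := gfold_abs_eq hv0 hv01 hj
      have e2 := gfold_abs_le hw0 hw01 (hw1.1 j.succ)
      have e3 : gfold (v 0) (v j.succ) = gfold (w 0) (w j.succ) := e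
      rw [e3] at e1
      linarith
  intro v hv w hw h
  have h0 : v 0 = w 0 := le_antisymm (hz w hw v hv h.symm) (hz v hv w hw h)
  have hw01 : w 0 ≤ 1 := (le_abs_self _).trans (((mem_sphere_pi' w).1 hw.1).1 0)
  funext i
  refine Fin.cases h0 (fun j => ?_) i
  have e : gfold (v 0) (v j.succ) = gfold (w 0) (w j.succ) := congrFun h j
  rw [h0] at e
  exact gfold_inj hw01 e

theorem unfoldN_image {n : ℕ} (hn : n ≠ 0) :
    unfoldN '' hemiU n = closedBall (0 : Fin n → ℝ) 1 := by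
  apply Subset.antisymm
  · rintro _ ⟨v, ⟨hv, hv2⟩, rfl⟩
    rw [mem_sphere_pi'] at hv
    have hv0 : (0:ℝ) ≤ v 0 := hv2
    have hv01 : v 0 ≤ 1 := (le_abs_self _).trans (hv.1 0)
    rw [mem_closedBall_pi']
    intro i
    exact (gfold_abs_le hv0 hv01 (hv.1 i.succ)).trans (by linarith)
  · intro w hw
    have : Nonempty (Fin n) := ⟨⟨0, Nat.pos_of_ne_zero hn⟩⟩
    have hρ : ‖w‖ ≤ 1 := mem_closedBall_zero_iff.1 hw
    have hwi : ∀ i, |w i| ≤ ‖w‖ := fun i => norm_le_pi_norm w i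
    rcases le_total ‖w‖ (1 / 2) with h | h
    · have hs : ∀ i, ∃ y, |y| ≤ 1 ∧ gfold 1 y = w i := fun i =>
        gfold_surj zero_le_one le_rfl ((hwi i).trans (by linarith))
      choose y hy hy' using hs
      refine ⟨Fin.cons 1 y, ⟨?_, ?_⟩, ?_⟩
      · rw [mem_sphere_pi']
        refine ⟨fun i => ?_, 0, by simp⟩
        refine Fin.cases (by simp) (fun j => ?_) i
        simpa using hy j
      · show (0:ℝ) ≤ (Fin.cons 1 y : Fin (n + 1) → ℝ) 0
        simp
      · funext i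
        show gfold ((Fin.cons 1 y : Fin (n + 1) → ℝ) 0) ((Fin.cons 1 y : Fin (n + 1) → ℝ) i.succ)
          = w i
        simpa using hy' i
    · have hz0 : (0:ℝ) ≤ 2 - 2 * ‖w‖ := by linarith
      have hz1 : 2 - 2 * ‖w‖ ≤ 1 := by linarith
      have hzz : 1 - (2 - 2 * ‖w‖) / 2 = ‖w‖ := by ring
      have hs : ∀ i, ∃ y, |y| ≤ 1 ∧ gfold (2 - 2 * ‖w‖) y = w i := fun i =>
        gfold_surj hz0 hz1 (by rw [hzz]; exact hwi i)
      choose y hy hy' using hs
      refine ⟨Fin.cons (2 - 2 * ‖w‖) y, ⟨?_, ?_⟩, ?_⟩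
      · rw [mem_sphere_pi']
        refine ⟨fun i => ?_, ?_⟩
        · refine Fin.cases ?_ (fun j => ?_) i
          · simpa [abs_of_nonneg hz0] using hz1
          · simpa using hy j
        · rcases hz1.lt_or_eq with hlt | heq
          · obtain ⟨i, hi⟩ : ∃ i, |w i| = ‖w‖ := by
              by_contra hcon
              push Not at hcon
              have hpos : 0 < ‖w‖ := by linarith
              have : ‖w‖ < ‖w‖ := by
                conv_lhs => rw [← sub_zero w]
                rw [sub_zero, pi_norm_lt_iff hpos]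
                exact fun i => lt_of_le_of_ne (hwi i) (hcon i)
              exact lt_irrefl _ this
            refine ⟨i.succ, ?_⟩
            simp only [Fin.cons_succ]
            refine gfold_abs_eq' hz0 hlt (hy i) ?_
            rw [hy' i, hzz, hi]
          · exact ⟨0, by simp only [Fin.cons_zero]; rw [heq, abs_one]⟩
      · show (0:ℝ) ≤ (Fin.cons (2 - 2 * ‖w‖) y : Fin (n + 1) → ℝ) 0
        simpa using hz0
      · funext i
        show gfold ((Fin.cons (2 - 2 * ‖w‖) y : Fin (n + 1) → ℝ) 0)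
          ((Fin.cons (2 - 2 * ‖w‖) y : Fin (n + 1) → ℝ) i.succ) = w i
        simpa using hy' i

/-- the closed upper hemisphere is a conical ball with boundary the equator -/
theorem conBall_hemiU {n : ℕ} (hn : n ≠ 0) : ConBall n (hemiU n) (eqN n) := by
  refine ⟨fun v hv => ⟨hv.1, (show v 0 = 0 from hv.2).ge⟩,
    ConHomeo.ofCompact (isCompact_hemiU n) unfoldN continuous_unfoldN.continuousOn
      (unfoldN_injOn n) (conicalOn_unfoldN (conicalSet_hemiU n)) (unfoldN_image hn), ?_⟩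
  rw [ConHomeo.ofCompact_toFun]
  apply Subset.antisymm
  · rintro _ ⟨v, ⟨hv, hv2⟩, rfl⟩
    have hz : v 0 = 0 := hv2
    rw [mem_sphere_pi'] at hv ⊢
    have hb : ∀ i, |unfoldN v i| ≤ 1 := fun i => by
      have := gfold_abs_le (z := v 0) hz.ge (by linarith) (hv.1 i.succ)
      exact this.trans (by linarith)
    refine ⟨hb, ?_⟩
    obtain ⟨i, hi⟩ := hv.2
    refine Fin.cases ?_ (fun j => ?_) i (motive := fun i => |v i| = 1 → ∃ i, |unfoldN v i| = 1) hi
    · intro h0
      rw [hz, abs_zero] at h0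
      exact absurd h0 zero_ne_one
    · intro hj
      refine ⟨j, ?_⟩
      have := gfold_abs_eq (z := v 0) hz.ge (by linarith) hj
      show |gfold (v 0) (v j.succ)| = 1
      rw [this, hz]; norm_num
  · intro w hw
    have hw' : w ∈ closedBall (0 : Fin n → ℝ) 1 := sphere_subset_closedBall hw
    rw [← unfoldN_image hn] at hw'
    obtain ⟨v, hv, rfl⟩ := hw'
    refine ⟨v, ⟨hv.1, ?_⟩, rfl⟩
    obtain ⟨hv1, hv2⟩ := hv
    rw [mem_sphere_pi'] at hv1
    have hv0 : (0:ℝ) ≤ v 0 := hv2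
    have hv01 : v 0 ≤ 1 := (le_abs_self _).trans (hv1.1 0)
    obtain ⟨-, i, hi⟩ := (mem_sphere_pi' _).1 hw
    have u0 := gfold_abs_le hv0 hv01 (hv1.1 i.succ)
    have : |gfold (v 0) (v i.succ)| = 1 := hi
    show v 0 = 0
    linarith

/-- reflection in the first coordinate -/
noncomputable def reflN (n : ℕ) : (Fin (n + 1) → ℝ) →ₗ[ℝ] (Fin (n + 1) → ℝ) where
  toFun v := Fin.cons (-v 0) (fun i => v i.succ)
  map_add' v w := by
    funext i
    refine Fin.cases ?_ (fun j => ?_) i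
    · simp [add_comm]
    · simp
  map_smul' c v := by
    funext i
    refine Fin.cases ?_ (fun j => ?_) i <;> simp

theorem reflN_zero {n : ℕ} (v : Fin (n + 1) → ℝ) : reflN n v 0 = -v 0 := rfl
theorem reflN_succ {n : ℕ} (v : Fin (n + 1) → ℝ) (i : Fin n) : reflN n v i.succ = v i.succ := rfl

theorem reflN_reflN {n : ℕ} (v : Fin (n + 1) → ℝ) : reflN n (reflN n v) = v := by
  funext i
  refine Fin.cases ?_ (fun j => ?_) i
  · rw [reflN_zero, reflN_zero, neg_neg]
  · rw [reflN_succ, reflN_succ]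

theorem reflN_abs {n : ℕ} (v : Fin (n + 1) → ℝ) (i : Fin (n + 1)) : |reflN n v i| = |v i| := by
  refine Fin.cases ?_ (fun j => ?_) i
  · rw [reflN_zero, abs_neg]
  · rw [reflN_succ]

theorem reflN_mem_closedBall {n : ℕ} {v : Fin (n + 1) → ℝ}
    (hv : v ∈ closedBall (0 : Fin (n + 1) → ℝ) 1) :
    reflN n v ∈ closedBall (0 : Fin (n + 1) → ℝ) 1 := by
  rw [mem_closedBall_pi'] at hv ⊢
  intro i; rw [reflN_abs]; exact hv i

theorem reflN_mem_sphere {n : ℕ} {v : Fin (n + 1) → ℝ}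
    (hv : v ∈ sphere (0 : Fin (n + 1) → ℝ) 1) :
    reflN n v ∈ sphere (0 : Fin (n + 1) → ℝ) 1 := by
  rw [mem_sphere_pi'] at hv ⊢
  exact ⟨fun i => by rw [reflN_abs]; exact hv.1 i, hv.2.imp fun i hi => by rw [reflN_abs]; exact hi⟩

theorem reflN_image {n : ℕ} {X Y : Set (Fin (n + 1) → ℝ)} (h1 : ∀ v ∈ X, reflN n v ∈ Y)
    (h2 : ∀ v ∈ Y, reflN n v ∈ X) : (fun v => reflN n v) '' X = Y := by
  apply Subset.antisymm
  · rintro _ ⟨v, hv, rfl⟩; exact h1 v hv
  · intro v hv; exact ⟨_, h2 v hv, reflN_reflN v⟩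

theorem ConBall.image_reflN {n m : ℕ} {X B : Set (Fin (n + 1) → ℝ)} (h : ConBall m X B) :
    ConBall m ((fun v => reflN n v) '' X) ((fun v => reflN n v) '' B) := by
  have hi : InjOn (fun v => reflN n v) X :=
    fun v _ w _ h => by rw [← reflN_reflN v, (show reflN n v = reflN n w from h), reflN_reflN]
  have h1 := h.image (ConHomeo.ofCompact h.isCompact (fun v => reflN n v)
    ((reflN n).continuous_of_finiteDimensional).continuousOn hi (conicalOn_linear (reflN n)
      h.conicalSet) rfl) (le_refl _)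
  rw [ConHomeo.ofCompact_toFun] at h1
  exact h1

theorem reflN_hemiU (n : ℕ) : (fun v => reflN n v) '' hemiU n = hemiD n :=
  reflN_image (fun v hv => ⟨reflN_mem_sphere hv.1, by
    show reflN n v 0 ≤ 0
    rw [reflN_zero]; have : (0:ℝ) ≤ v 0 := hv.2
    linarith⟩) (fun v hv => ⟨reflN_mem_sphere hv.1, by
    show (0:ℝ) ≤ reflN n v 0
    rw [reflN_zero]; have : v 0 ≤ 0 := hv.2
    linarith⟩)

theorem reflN_eqN (n : ℕ) : (fun v => reflN n v) '' eqN n = eqN n := by
  have : ∀ v ∈ eqN n, reflN n v ∈ eqN n := fun v hv => ⟨reflN_mem_sphere hv.1, by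
    show reflN n v 0 = 0
    rw [reflN_zero]; have : v 0 = 0 := hv.2
    linarith⟩
  exact reflN_image this this

theorem reflN_eqDisc (n : ℕ) : (fun v => reflN n v) '' eqDisc n = eqDisc n := by
  have : ∀ v ∈ eqDisc n, reflN n v ∈ eqDisc n := fun v hv => ⟨reflN_mem_closedBall hv.1, by
    show reflN n v 0 = 0
    rw [reflN_zero]; have : v 0 = 0 := hv.2
    linarith⟩
  exact reflN_image this this

theorem reflN_halfU (n : ℕ) : (fun v => reflN n v) '' halfU n = halfD n :=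
  reflN_image (fun v hv => ⟨reflN_mem_closedBall hv.1, by
    show reflN n v 0 ≤ 0
    rw [reflN_zero]; have : (0:ℝ) ≤ v 0 := hv.2
    linarith⟩) (fun v hv => ⟨reflN_mem_closedBall hv.1, by
    show (0:ℝ) ≤ reflN n v 0
    rw [reflN_zero]; have : v 0 ≤ 0 := hv.2
    linarith⟩)

theorem conBall_hemiD {n : ℕ} (hn : n ≠ 0) : ConBall n (hemiD n) (eqN n) := by
  have := (conBall_hemiU hn).image_reflN
  rwa [reflN_hemiU, reflN_eqN] at this

theorem hemiU_union_hemiD (n : ℕ) : hemiU n ∪ hemiD n = sphere 0 1 := by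
  ext v
  constructor
  · rintro (h | h) <;> exact h.1
  · intro h
    rcases le_total (0:ℝ) (v 0) with h0 | h0
    · exact Or.inl ⟨h, h0⟩
    · exact Or.inr ⟨h, h0⟩

theorem hemiU_inter_hemiD (n : ℕ) : hemiU n ∩ hemiD n = eqN n := by
  ext v
  constructor
  · rintro ⟨⟨h, h0⟩, -, h1⟩
    exact ⟨h, le_antisymm h1 h0⟩
  · rintro ⟨h, h0⟩
    exact ⟨⟨h, (show v 0 = 0 from h0).ge⟩, ⟨h, (show v 0 = 0 from h0).le⟩⟩

theorem halfU_union_halfD (n : ℕ) : halfU n ∪ halfD n = closedBall 0 1 := by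
  ext v
  constructor
  · rintro (h | h) <;> exact h.1
  · intro h
    rcases le_total (0:ℝ) (v 0) with h0 | h0
    · exact Or.inl ⟨h, h0⟩
    · exact Or.inr ⟨h, h0⟩

theorem halfU_inter_halfD (n : ℕ) : halfU n ∩ halfD n = eqDisc n := by
  ext v
  constructor
  · rintro ⟨⟨h, h0⟩, -, h1⟩
    exact ⟨h, le_antisymm h1 h0⟩
  · rintro ⟨h, h0⟩
    exact ⟨⟨h, (show v 0 = 0 from h0).ge⟩, ⟨h, (show v 0 = 0 from h0).le⟩⟩

theorem eqDisc_inter_sphere (n : ℕ) : eqDisc n ∩ sphere 0 1 = eqN n := by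
  ext v
  exact ⟨fun h => ⟨h.2, h.1.2⟩, fun h => ⟨⟨sphere_subset_closedBall h.1, h.2⟩, h.1⟩⟩

/-- the equatorial disc -/
theorem conBall_eqDisc {n : ℕ} (hn : n ≠ 0) : ConBall n (eqDisc n) (eqN n) := by
  have h := conBall_brickFace hn (0 : Fin (n + 1)) 0 (lo := fun _ => -1) (hi := fun _ => 1)
    (fun _ _ => by norm_num)
  have e1 : {x : Fin (n + 1) → ℝ | x 0 = 0 ∧ ∀ k, k ≠ 0 → -1 ≤ x k ∧ x k ≤ 1} = eqDisc n := by
    ext v
    constructor
    · rintro ⟨h0, h1⟩
      refine ⟨(mem_closedBall_pi' v).2 fun i => ?_, h0⟩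
      by_cases hi : i = 0
      · rw [hi, h0, abs_zero]; exact zero_le_one
      · exact abs_le.2 (h1 i hi)
    · rintro ⟨h1, h0⟩
      exact ⟨h0, fun k _ => abs_le.1 ((mem_closedBall_pi' v).1 h1 k)⟩
  have e2 : {x | x ∈ {x : Fin (n + 1) → ℝ | x 0 = 0 ∧ ∀ k, k ≠ 0 → -1 ≤ x k ∧ x k ≤ 1} ∧
      ∃ k, k ≠ 0 ∧ (x k = -1 ∨ x k = 1)} = eqN n := by
    rw [e1]
    ext v
    constructor
    · rintro ⟨⟨h1, h0⟩, k, -, h2⟩
      refine ⟨(mem_sphere_pi' v).2 ⟨(mem_closedBall_pi' v).1 h1, k, ?_⟩, h0⟩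
      rcases h2 with h2 | h2 <;> rw [h2] <;> simp
    · rintro ⟨h1, h0⟩
      obtain ⟨h2, i, hi⟩ := (mem_sphere_pi' v).1 h1
      refine ⟨⟨(mem_closedBall_pi' v).2 h2, h0⟩, i, ?_, ?_⟩
      · rintro rfl
        rw [(show v 0 = 0 from h0), abs_zero] at hi
        exact zero_ne_one hi
      · rcases eq_or_eq_neg_of_abs_eq hi with h | h
        · exact Or.inr h
        · exact Or.inl h
  rw [e2, e1] at h
  exact h

/-- the upper half ball -/
theorem conBall_halfU (n : ℕ) : ConBall (n + 1) (halfU n) (hemiU n ∪ eqDisc n) := by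
  have h := conBall_brick (Nat.succ_ne_zero n) (lo := (Fin.cons 0 fun _ => -1 : Fin (n + 1) → ℝ))
    (hi := fun _ => 1) (fun k => by
      refine Fin.cases (by simp) (fun j => by simp) k)
  have e0 : ∀ v : Fin (n + 1) → ℝ, (∀ k, (Fin.cons 0 fun _ => -1 : Fin (n + 1) → ℝ) k ≤ v k ∧
      v k ≤ 1) ↔ v ∈ halfU n := by
    intro v
    constructor
    · intro h
      have h0 := h 0
      simp only [Fin.cons_zero] at h0
      refine ⟨(mem_closedBall_pi' v).2 fun i => ?_, h0.1⟩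
      refine Fin.cases ?_ (fun j => ?_) i
      · rw [abs_le]; exact ⟨by linarith [h0.1], h0.2⟩
      · have := h j.succ
        simp only [Fin.cons_succ] at this
        exact abs_le.2 this
    · rintro ⟨h1, h0⟩ k
      have h2 := (mem_closedBall_pi' v).1 h1
      refine Fin.cases ?_ (fun j => ?_) k
      · simp only [Fin.cons_zero]
        exact ⟨h0, (abs_le.1 (h2 0)).2⟩
      · simp only [Fin.cons_succ]
        exact abs_le.1 (h2 j.succ)
  have e1 : {x : Fin (n + 1) → ℝ | ∀ k, (Fin.cons 0 fun _ => -1 : Fin (n + 1) → ℝ) k ≤ x k ∧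
      x k ≤ 1} = halfU n := by
    ext v; exact e0 v
  have e2 : ({x : Fin (n + 1) → ℝ | ∀ k, (Fin.cons 0 fun _ => -1 : Fin (n + 1) → ℝ) k ≤ x k ∧
      x k ≤ 1} \ {x | ∀ k, (Fin.cons 0 fun _ => -1 : Fin (n + 1) → ℝ) k < x k ∧
      x k < 1}) = hemiU n ∪ eqDisc n := by
    rw [e1]
    ext v
    constructor
    · rintro ⟨⟨h1, h0⟩, h2⟩
      have h3 := (mem_closedBall_pi' v).1 h1
      by_cases h4 : ∃ i, |v i| = 1
      · exact Or.inl ⟨(mem_sphere_pi' v).2 ⟨h3, h4⟩, h0⟩
      · right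
        push Not at h4
        refine ⟨h1, ?_⟩
        by_contra hne
        refine h2 fun k => ?_
        have h5 : ∀ i, |v i| < 1 := fun i => lt_of_le_of_ne (h3 i) (h4 i)
        refine Fin.cases ?_ (fun j => ?_) k
        · simp only [Fin.cons_zero]
          exact ⟨lt_of_le_of_ne h0 (fun h => hne h.symm), (abs_lt.1 (h5 0)).2⟩
        · simp only [Fin.cons_succ]
          exact abs_lt.1 (h5 j.succ)
    · rintro (⟨h1, h0⟩ | ⟨h1, h0⟩)
      · refine ⟨⟨sphere_subset_closedBall h1, h0⟩, fun h2 => ?_⟩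
        obtain ⟨h3, i, hi⟩ := (mem_sphere_pi' v).1 h1
        refine Fin.cases ?_ (fun j => ?_) i (motive := fun i => |v i| = 1 → False) hi
        · intro hi0
          have h4 := (h2 0).2
          rw [abs_of_nonneg (show (0:ℝ) ≤ v 0 from h0)] at hi0
          exact h4.ne hi0
        · intro hij
          have h4 := h2 j.succ
          simp only [Fin.cons_succ] at h4
          exact (abs_lt.2 h4).ne hij
      · refine ⟨⟨h1, (show v 0 = 0 from h0).ge⟩, fun h2 => ?_⟩
        have h4 := (h2 0).1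
        simp only [Fin.cons_zero] at h4
        exact h4.ne' h0
  rw [e2, e1] at h
  exact h

theorem conBall_halfD (n : ℕ) : ConBall (n + 1) (halfD n) (hemiD n ∪ eqDisc n) := by
  have := (conBall_halfU n).image_reflN
  rwa [reflN_halfU, image_union, reflN_hemiU, reflN_eqDisc] at this

/-- the cone over the upper hemisphere is the upper half ball -/
theorem coneSet_hemiU (n : ℕ) : coneSet (hemiU n) = halfU n := by
  apply Subset.antisymm
  · rintro _ ⟨s, hs, v, ⟨hv, hv0⟩, rfl⟩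
    refine ⟨?_, ?_⟩
    · rw [mem_sphere_zero_iff_norm] at hv
      rw [mem_closedBall_zero_iff, norm_smul, hv, mul_one, Real.norm_of_nonneg hs.1]
      exact hs.2
    · show (0:ℝ) ≤ s * v 0
      exact mul_nonneg hs.1 hv0
  · rintro v ⟨hv, hv0⟩
    have : v ∈ coneSet (sphere (0 : Fin (n + 1) → ℝ) 1) := by
      rw [coneSet_sphere_pi]; exact hv
    obtain ⟨s, hs, w, hw, rfl⟩ := this
    rcases hs.1.lt_or_eq with h | h
    · refine ⟨s, hs, w, ⟨hw, ?_⟩, rfl⟩
      have h1 : (0:ℝ) ≤ s * w 0 := hv0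
      exact nonneg_of_mul_nonneg_right h1 h
    · have h1 : (Fin.cons 1 fun _ => 0 : Fin (n + 1) → ℝ) ∈ hemiU n := by
        refine ⟨(mem_sphere_pi' _).2 ⟨fun i => ?_, 0, by simp⟩, by simp⟩
        refine Fin.cases (by simp) (fun j => by simp) i
      refine ⟨0, ⟨le_rfl, zero_le_one⟩, _, h1, ?_⟩
      rw [← h, zero_smul, zero_smul]

/-- the cone over the equator is the equatorial disc -/
theorem coneSet_eqN {n : ℕ} (hn : n ≠ 0) : coneSet (eqN n) = eqDisc n := by
  apply Subset.antisymm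
  · rintro _ ⟨s, hs, v, ⟨hv, hv0⟩, rfl⟩
    refine ⟨?_, ?_⟩
    · rw [mem_sphere_zero_iff_norm] at hv
      rw [mem_closedBall_zero_iff, norm_smul, hv, mul_one, Real.norm_of_nonneg hs.1]
      exact hs.2
    · show s * v 0 = 0
      rw [(show v 0 = 0 from hv0), mul_zero]
  · rintro v ⟨hv, hv0⟩
    have : v ∈ coneSet (sphere (0 : Fin (n + 1) → ℝ) 1) := by
      rw [coneSet_sphere_pi]; exact hv
    obtain ⟨s, hs, w, hw, rfl⟩ := this
    rcases hs.1.lt_or_eq with h | h
    · refine ⟨s, hs, w, ⟨hw, ?_⟩, rfl⟩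
      have h1 : s * w 0 = 0 := hv0
      exact (mul_eq_zero.1 h1).resolve_left h.ne'
    · have h1 : (Fin.cons 0 fun _ => 1 : Fin (n + 1) → ℝ) ∈ eqN n := by
        refine ⟨(mem_sphere_pi' _).2 ⟨fun i => ?_, (⟨0, Nat.pos_of_ne_zero hn⟩ : Fin n).succ,
          ?_⟩, by simp⟩
        swap
        · rw [Fin.cons_succ, abs_one]
        refine Fin.cases (by simp) (fun j => by simp) i
      refine ⟨0, ⟨le_rfl, zero_le_one⟩, _, h1, ?_⟩
      rw [← h, zero_smul, zero_smul]

end P073
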