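import Vale.Agent.P073.PR.Boxes

/-!
# P073, block PR: bricks and their faces (exact format of block KW)
-/

open Set Metric Topology Filter

namespace P073

/-- interior of a box, coordinatewise -/
theorem interior_Icc_pi' {n : ℕ} (a b : Fin n → ℝ) :
    interior (Icc a b) = {v | ∀ k, a k < v k ∧ v k < b k} := by
  rw [← Set.pi_univ_Icc, interior_pi_set (finite_univ)]
  ext v
  simp only [interior_Icc, Set.mem_pi, mem_univ, forall_true_left, mem_Ioo]
  rfl

theorem frontier_Icc_pi' {n : ℕ} (a b : Fin n → ℝ) :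
    frontier (Icc a b) = {v | (∀ k, a k ≤ v k ∧ v k ≤ b k)} \
      {v | ∀ k, a k < v k ∧ v k < b k} := by
  rw [isClosed_Icc.frontier_eq, interior_Icc_pi']
  congr 1
  ext v
  exact ⟨fun h k => ⟨h.1 k, h.2 k⟩, fun h => ⟨fun k => (h k).1, fun k => (h k).2⟩⟩

theorem Icc_pi' {n : ℕ} (a b : Fin n → ℝ) :
    Icc a b = {v | (∀ k, a k ≤ v k ∧ v k ≤ b k)} := by
  ext v
  exact ⟨fun h k => ⟨h.1 k, h.2 k⟩, fun h => ⟨fun k => (h k).1, fun k => (h k).2⟩⟩

/-- **Bricks** are conical balls. -/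
theorem conBall_brick {n : ℕ} (hn : n ≠ 0) {lo hi : Fin n → ℝ} (h : ∀ k, lo k < hi k) :
    ConBall n {x : Fin n → ℝ | ∀ k, lo k ≤ x k ∧ x k ≤ hi k}
      ({x : Fin n → ℝ | ∀ k, lo k ≤ x k ∧ x k ≤ hi k} \ {x | ∀ k, lo k < x k ∧ x k < hi k}) := by
  have := conBall_Icc_pi hn h
  rwa [frontier_Icc_pi', Icc_pi'] at this

/-- insertion of a constant coordinate -/
noncomputable def insMap {n : ℕ} (l : Fin (n + 1)) (c : ℝ) :
    (Fin n → ℝ) →ᵃ[ℝ] (Fin (n + 1) → ℝ) where
  toFun v := l.insertNth (α := fun _ => ℝ) c v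
  linear :=
    { toFun := fun v => l.insertNth (α := fun _ => ℝ) 0 v
      map_add' := fun v w => by
        funext k
        refine l.succAboveCases ?_ (fun i => ?_) k <;> simp
      map_smul' := fun t v => by
        funext k
        refine l.succAboveCases ?_ (fun i => ?_) k <;> simp }
  map_vadd' := fun v w => by
    funext k
    refine l.succAboveCases ?_ (fun i => ?_) k <;> simp

theorem insMap_apply {n : ℕ} (l : Fin (n + 1)) (c : ℝ) (v : Fin n → ℝ) :
    insMap l c v = l.insertNth (α := fun _ => ℝ) c v := rfl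

theorem insMap_same {n : ℕ} (l : Fin (n + 1)) (c : ℝ) (v : Fin n → ℝ) : insMap l c v l = c := by
  rw [insMap_apply, Fin.insertNth_apply_same]

theorem insMap_succAbove {n : ℕ} (l : Fin (n + 1)) (c : ℝ) (v : Fin n → ℝ) (i : Fin n) :
    insMap l c v (l.succAbove i) = v i := by
  rw [insMap_apply, Fin.insertNth_apply_succAbove]

theorem insMap_injective {n : ℕ} (l : Fin (n + 1)) (c : ℝ) :
    Function.Injective (insMap l c) := by
  intro v w h
  funext i
  have := congrFun h (l.succAbove i)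
  rwa [insMap_succAbove, insMap_succAbove] at this

theorem continuous_insMap {n : ℕ} (l : Fin (n + 1)) (c : ℝ) : Continuous (insMap l c) := by
  refine continuous_pi fun k => ?_
  refine l.succAboveCases ?_ (fun i => ?_) k
  · simp only [insMap_same]; exact continuous_const
  · simp only [insMap_succAbove]; fun_prop

theorem forall_ne_iff_succAbove {n : ℕ} (l : Fin (n + 1)) (P : Fin (n + 1) → Prop) :
    (∀ k, k ≠ l → P k) ↔ ∀ i, P (l.succAbove i) := by
  constructor
  · intro h i; exact h _ (Fin.succAbove_ne l i)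
  · intro h k hk
    obtain ⟨i, rfl⟩ := Fin.exists_succAbove_eq hk
    exact h i

theorem exists_ne_iff_succAbove {n : ℕ} (l : Fin (n + 1)) (P : Fin (n + 1) → Prop) :
    (∃ k, k ≠ l ∧ P k) ↔ ∃ i, P (l.succAbove i) := by
  constructor
  · rintro ⟨k, hk, h⟩
    obtain ⟨i, rfl⟩ := Fin.exists_succAbove_eq hk
    exact ⟨i, h⟩
  · rintro ⟨i, h⟩; exact ⟨_, Fin.succAbove_ne l i, h⟩

/-- **Faces** of bricks are conical balls of one dimension less. -/
theorem conBall_brickFace {n : ℕ} (hn : n ≠ 0) (l : Fin (n + 1)) (c : ℝ)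
    {lo hi : Fin (n + 1) → ℝ} (h : ∀ k, k ≠ l → lo k < hi k) :
    ConBall n {x : Fin (n + 1) → ℝ | x l = c ∧ ∀ k, k ≠ l → lo k ≤ x k ∧ x k ≤ hi k}
      {x | x ∈ {x : Fin (n + 1) → ℝ | x l = c ∧ ∀ k, k ≠ l → lo k ≤ x k ∧ x k ≤ hi k} ∧
        ∃ k, k ≠ l ∧ (x k = lo k ∨ x k = hi k)} := by
  have h' : ∀ i, lo (l.succAbove i) < hi (l.succAbove i) := fun i => h _ (Fin.succAbove_ne l i)
  have key := (conBall_brick hn h').image_affine (insMap l c) (insMap_injective l c)
    (continuous_insMap l c)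
  have e1 : insMap l c '' {x : Fin n → ℝ | ∀ k, lo (l.succAbove k) ≤ x k ∧
      x k ≤ hi (l.succAbove k)} =
      {x : Fin (n + 1) → ℝ | x l = c ∧ ∀ k, k ≠ l → lo k ≤ x k ∧ x k ≤ hi k} := by
    ext x
    constructor
    · rintro ⟨v, hv, rfl⟩
      refine ⟨insMap_same l c v, ?_⟩
      rw [forall_ne_iff_succAbove]
      intro i
      rw [insMap_succAbove]
      exact hv i
    · rintro ⟨h1, h2⟩
      rw [forall_ne_iff_succAbove] at h2
      refine ⟨fun i => x (l.succAbove i), h2, ?_⟩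
      funext k
      refine l.succAboveCases ?_ (fun i => ?_) k
      · rw [insMap_same, h1]
      · rw [insMap_succAbove]
  have e2 : insMap l c '' ({x : Fin n → ℝ | ∀ k, lo (l.succAbove k) ≤ x k ∧
      x k ≤ hi (l.succAbove k)} \ {x | ∀ k, lo (l.succAbove k) < x k ∧
      x k < hi (l.succAbove k)}) =
      {x | x ∈ {x : Fin (n + 1) → ℝ | x l = c ∧ ∀ k, k ≠ l → lo k ≤ x k ∧ x k ≤ hi k} ∧
        ∃ k, k ≠ l ∧ (x k = lo k ∨ x k = hi k)} := by
    rw [image_sdiff (insMap_injective l c), e1]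
    ext x
    refine and_congr_right fun hx => ?_
    obtain ⟨h1, h2⟩ := hx
    rw [forall_ne_iff_succAbove] at h2
    rw [exists_ne_iff_succAbove]
    constructor
    · intro h3
      by_contra hcon
      push Not at hcon
      refine h3 ⟨fun i => x (l.succAbove i), fun i => ?_, ?_⟩
      · exact ⟨lt_of_le_of_ne (h2 i).1 (hcon i).1.symm, lt_of_le_of_ne (h2 i).2 (hcon i).2⟩
      · funext k
        refine l.succAboveCases ?_ (fun i => ?_) k
        · rw [insMap_same, h1]
        · rw [insMap_succAbove]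
    · rintro ⟨i, h3⟩ ⟨v, hv, rfl⟩
      rw [insMap_succAbove] at h3
      rcases h3 with h3 | h3
      · exact (hv i).1.ne' h3
      · exact (hv i).2.ne h3
  rwa [e1, e2] at key

end P073
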