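import Vale.Agent.P073.PR.HemiN

/-!
# P073, block PR: cones over conical balls; cutting a conical ball along a disc; union of two
conical balls along a disc; replacement of a disc in a sphere
-/

open Set Metric Topology Filter

namespace P073

variable {E F : Type*} [NormedAddCommGroup E] [NormedSpace ℝ E]
  [NormedAddCommGroup F] [NormedSpace ℝ F]

/-- two conical balls of the same dimension are homeomorphic as pairs -/
theorem ConBall.exists_homeo {n : ℕ} {C B : Set E} {C' B' : Set F} (h : ConBall n C B)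
    (h' : ConBall n C' B') : ∃ Φ : ConHomeo C C', Φ.toFun '' B = B' := by
  obtain ⟨hB, φ, hφ⟩ := h
  obtain ⟨ψ, hψ⟩ := h'.eq_preimage
  refine ⟨φ.trans ψ.symm, ?_⟩
  show (fun x => ψ.invFun (φ.toFun x)) '' B = B'
  rw [← image_image ψ.invFun φ.toFun, hφ, hψ]

/-- **Cones**: the cone over a conical `n`-ball is a conical `(n+1)`-ball. -/
theorem ConBall.coneSet {n : ℕ} (hn : n ≠ 0) {Δ Γ : Set E} (h : ConBall n Δ Γ)
    (hΔ : RayBase Δ) : ConBall (n + 1) (P073.coneSet Δ) (Δ ∪ P073.coneSet Γ) := by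
  obtain ⟨Φ, hΦ⟩ := h.exists_homeo (conBall_hemiU hn)
  have hU : RayBase (hemiU n) := (rayBase_sphere_pi (n + 1)).mono (isCompact_hemiU n)
    inter_subset_left
  let Ψ := ConHomeo.cone hΔ hU Φ
  have h1 : ConBall (n + 1) (P073.coneSet (hemiU n)) (hemiU n ∪ eqDisc n) := by
    rw [coneSet_hemiU]; exact conBall_halfU n
  have h2 := h1.image Ψ.symm (le_refl _)
  have e1 : Ψ.symm.toFun '' P073.coneSet (hemiU n) = P073.coneSet Δ := Ψ.symm.image_eq
  have hsymm : ∀ x ∈ P073.coneSet Δ, Ψ.symm.toFun (Ψ.toFun x) = x := fun x hx => Ψ.left_inv hx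
  have e2 : Ψ.toFun '' Δ = hemiU n := by
    rw [(ConHomeo.cone_eqOn hΔ hU Φ).image_eq, Φ.image_eq]
  have e3 : Ψ.toFun '' P073.coneSet Γ = eqDisc n := by
    rw [← coneSet_eqN hn, ← hΦ]
    ext z
    constructor
    · rintro ⟨_, ⟨s, hs, x, hx, rfl⟩, rfl⟩
      refine ⟨s, hs, Φ.toFun x, ⟨x, hx, rfl⟩, ?_⟩
      exact ConHomeo.cone_smul hΔ hU Φ hs (h.1 hx)
    · rintro ⟨s, hs, _, ⟨x, hx, rfl⟩, rfl⟩
      exact ⟨s • x, ⟨s, hs, x, hx, rfl⟩, ConHomeo.cone_smul hΔ hU Φ hs (h.1 hx)⟩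
  have hsub : Δ ∪ P073.coneSet Γ ⊆ P073.coneSet Δ := by
    rintro x (hx | ⟨s, hs, y, hy, rfl⟩)
    · exact subset_coneSet hx
    · exact ⟨s, hs, y, h.1 hy, rfl⟩
  have e5 : hemiU n ∪ eqDisc n = Ψ.toFun '' (Δ ∪ P073.coneSet Γ) := by
    rw [image_union, e2, e3]
  have e4 : Ψ.symm.toFun '' (hemiU n ∪ eqDisc n) = Δ ∪ P073.coneSet Γ := by
    rw [congrArg (fun X => Ψ.symm.toFun '' X) e5]
    show Ψ.symm.toFun '' (Ψ.toFun '' (Δ ∪ P073.coneSet Γ)) = Δ ∪ P073.coneSet Γ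
    rw [image_image, image_congr (fun x hx => hsymm x (hsub hx)), image_id']
  rw [e1, e4] at h2
  exact h2

/-- extension of a homeomorphism between discs to spheres made of two discs -/
theorem ConBall.extend_sphere {n : ℕ} {D g A : Set E} {D' g' A' : Set F} (hD : ConBall n D g)
    (hA : ConBall n A g) (hD' : ConBall n D' g') (hA' : ConBall n A' g') (hi : D ∩ A = g)
    (hi' : D' ∩ A' = g') (φ : ConHomeo D D') (hφ : φ.toFun '' g = g') :
    ∃ Φ : ConHomeo (D ∪ A) (D' ∪ A'), EqOn Φ.toFun φ.toFun D ∧ Φ.toFun '' A = A' := by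
  let ψ : ConHomeo g g' := (φ.restr hD.conicalSet_bdry hD.1).cast rfl hφ
  obtain ⟨Ψ, hΨ, -⟩ := hA.exists_extend hA' ψ
  have hag : EqOn φ.toFun Ψ.toFun (D ∩ A) := by
    rw [hi]; intro x hx; exact (hΨ hx).symm
  have himg : D' ∩ A' ⊆ φ.toFun '' (D ∩ A) := by rw [hi, hi', hφ]
  refine ⟨φ.glue Ψ hD.isClosed hA.isClosed hD'.isClosed hA'.isClosed hag himg,
    ConHomeo.glue_left _ _ _ _ _ _ _ _, ?_⟩
  rw [(ConHomeo.glue_right φ Ψ hD.isClosed hA.isClosed hD'.isClosed hA'.isClosed hag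
    himg).image_eq, Ψ.image_eq]

/-- ... and to the balls bounded by these spheres -/
theorem ConBall.extend_ball {n : ℕ} {D g A X : Set E} {D' g' A' X' : Set F} (hD : ConBall n D g)
    (hA : ConBall n A g) (hD' : ConBall n D' g') (hA' : ConBall n A' g') (hi : D ∩ A = g)
    (hi' : D' ∩ A' = g') (hX : ConBall (n + 1) X (D ∪ A)) (hX' : ConBall (n + 1) X' (D' ∪ A'))
    (φ : ConHomeo D D') (hφ : φ.toFun '' g = g') :
    ∃ Φ : ConHomeo X X', EqOn Φ.toFun φ.toFun D ∧ Φ.toFun '' A = A' := by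
  obtain ⟨Ψ, h1, h2⟩ := hD.extend_sphere hA hD' hA' hi hi' φ hφ
  obtain ⟨Φ, h3, -⟩ := hX.exists_extend hX' Ψ
  refine ⟨Φ, fun x hx => (h3 (Or.inl hx)).trans (h1 hx), ?_⟩
  rw [(h3.mono subset_union_right).image_eq, h2]

theorem hemiU_inter_eqDisc (n : ℕ) : hemiU n ∩ eqDisc n = eqN n := by
  ext v
  exact ⟨fun h => ⟨h.1.1, h.2.2⟩, fun h => ⟨⟨h.1, (show v 0 = 0 from h.2).ge⟩,
    ⟨sphere_subset_closedBall h.1, h.2⟩⟩⟩

theorem hemiD_inter_eqDisc (n : ℕ) : hemiD n ∩ eqDisc n = eqN n := by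
  ext v
  exact ⟨fun h => ⟨h.1.1, h.2.2⟩, fun h => ⟨⟨h.1, (show v 0 = 0 from h.2).le⟩,
    ⟨sphere_subset_closedBall h.1, h.2⟩⟩⟩

/-- a ball whose boundary sphere is decomposed into two discs has a chart with values in the
standard ball taking the discs to the hemispheres -/
theorem ConBall.exists_chart {n : ℕ} (hn : n ≠ 0) {C A B g : Set E}
    (hC : ConBall (n + 1) C (A ∪ B)) (hA : ConBall n A g) (hB : ConBall n B g)
    (hi : A ∩ B = g) : ∃ Φ : ConHomeo C (closedBall (0 : Fin (n + 1) → ℝ) 1),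
      Φ.toFun '' A = hemiU n ∧ Φ.toFun '' B = hemiD n := by
  obtain ⟨φ, hφ⟩ := hA.exists_homeo (conBall_hemiU hn)
  have hst : ConBall (n + 1) (closedBall (0 : Fin (n + 1) → ℝ) 1) (hemiU n ∪ hemiD n) := by
    rw [hemiU_union_hemiD]; exact conBall_std (n + 1)
  obtain ⟨Φ, h1, h2⟩ := hA.extend_ball hB (conBall_hemiU hn) (conBall_hemiD hn) hi
    (hemiU_inter_hemiD n) hC hst φ hφ
  exact ⟨Φ, by rw [h1.image_eq, φ.image_eq], h2⟩

theorem ConHomeo.image_inter {X : Set E} {Y : Set F} (Φ : ConHomeo X Y) {A B : Set E}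
    (hA : A ⊆ X) (hB : B ⊆ X) : Φ.toFun '' (A ∩ B) = Φ.toFun '' A ∩ Φ.toFun '' B :=
  Set.image_inter_on fun _ hx _ hy h => Φ.injOn (hB hx) (hA hy) h

theorem ConHomeo.invFun_image {X : Set E} {Y : Set F} (Φ : ConHomeo X Y) {A : Set E}
    (hA : A ⊆ X) : Φ.invFun '' (Φ.toFun '' A) = A := by
  rw [image_image, image_congr fun x hx => Φ.left_inv (hA hx), image_id']

/-- **Cutting** a conical ball along a disc with prescribed boundary. -/
theorem ConBall.exists_cut {n : ℕ} (hn : n ≠ 0) {C A B g : Set E}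
    (hC : ConBall (n + 1) C (A ∪ B)) (hA : ConBall n A g) (hB : ConBall n B g)
    (hi : A ∩ B = g) : ∃ D C₁ C₂ : Set E, ConBall n D g ∧ D ∩ (A ∪ B) = g ∧ C₁ ∪ C₂ = C ∧
      C₁ ∩ C₂ = D ∧ ConBall (n + 1) C₁ (A ∪ D) ∧ ConBall (n + 1) C₂ (B ∪ D) ∧
      C₁ ∩ (A ∪ B) = A ∧ C₂ ∩ (A ∪ B) = B := by
  obtain ⟨Φ, h1, h2⟩ := hC.exists_chart hn hA hB hi
  have hAC : A ⊆ C := subset_union_left.trans hC.1
  have hBC : B ⊆ C := subset_union_right.trans hC.1
  have hgA : g ⊆ A := hA.1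
  have eA : Φ.symm.toFun '' hemiU n = A := by rw [← h1]; exact Φ.invFun_image hAC
  have eB : Φ.symm.toFun '' hemiD n = B := by rw [← h2]; exact Φ.invFun_image hBC
  have eAB : Φ.symm.toFun '' sphere 0 1 = A ∪ B := by
    rw [← hemiU_union_hemiD, image_union, eA, eB]
  have s1 : hemiU n ⊆ closedBall 0 1 := fun v hv => sphere_subset_closedBall hv.1
  have s2 : hemiD n ⊆ closedBall 0 1 := fun v hv => sphere_subset_closedBall hv.1
  have s3 : eqDisc n ⊆ closedBall 0 1 := fun v hv => hv.1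
  have s4 : halfU n ⊆ closedBall 0 1 := fun v hv => hv.1
  have s5 : halfD n ⊆ closedBall 0 1 := fun v hv => hv.1
  have eg : Φ.symm.toFun '' eqN n = g := by
    rw [← hemiU_inter_hemiD, Φ.symm.image_inter s1 s2, eA, eB, hi]
  refine ⟨Φ.symm.toFun '' eqDisc n, Φ.symm.toFun '' halfU n, Φ.symm.toFun '' halfD n,
    ?_, ?_, ?_, ?_, ?_, ?_, ?_, ?_⟩
  · have := (conBall_eqDisc hn).image Φ.symm s3
    rwa [eg] at this
  · rw [← eAB, ← Φ.symm.image_inter s3 sphere_subset_closedBall, eqDisc_inter_sphere, eg]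
  · rw [← image_union, halfU_union_halfD]; exact Φ.symm.image_eq
  · rw [← Φ.symm.image_inter s4 s5, halfU_inter_halfD]
  · have := (conBall_halfU n).image Φ.symm s4
    rwa [image_union, eA] at this
  · have := (conBall_halfD n).image Φ.symm s5
    rwa [image_union, eB] at this
  · rw [← eAB, ← Φ.symm.image_inter s4 sphere_subset_closedBall, ← eA]
    congr 1
    ext v
    exact ⟨fun h => ⟨h.2, h.1.2⟩, fun h => ⟨⟨sphere_subset_closedBall h.1, h.2⟩, h.1⟩⟩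
  · rw [← eAB, ← Φ.symm.image_inter s5 sphere_subset_closedBall, ← eB]
    congr 1
    ext v
    exact ⟨fun h => ⟨h.2, h.1.2⟩, fun h => ⟨⟨sphere_subset_closedBall h.1, h.2⟩, h.1⟩⟩

/-- **Union** of two conical balls along a common disc. -/
theorem ConBall.union {n : ℕ} (hn : n ≠ 0) {X Y A B D g : Set E}
    (hX : ConBall (n + 1) X (D ∪ A)) (hY : ConBall (n + 1) Y (D ∪ B)) (hXY : X ∩ Y = D)
    (hA : ConBall n A g) (hB : ConBall n B g) (hD : ConBall n D g) (hAD : D ∩ A = g)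
    (hBD : D ∩ B = g) : ConBall (n + 1) (X ∪ Y) (A ∪ B) := by
  obtain ⟨φ, hφ⟩ := hD.exists_homeo (conBall_eqDisc hn)
  have hU : ConBall (n + 1) (halfU n) (eqDisc n ∪ hemiU n) := by
    rw [union_comm]; exact conBall_halfU n
  have hL : ConBall (n + 1) (halfD n) (eqDisc n ∪ hemiD n) := by
    rw [union_comm]; exact conBall_halfD n
  obtain ⟨Φ, h1, h2⟩ := hD.extend_ball hA (conBall_eqDisc hn) (conBall_hemiU hn) hAD
    (by rw [inter_comm]; exact hemiU_inter_eqDisc n) hX hU φ hφ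
  obtain ⟨Ψ, h3, h4⟩ := hD.extend_ball hB (conBall_eqDisc hn) (conBall_hemiD hn) hBD
    (by rw [inter_comm]; exact hemiD_inter_eqDisc n) hY hL φ hφ
  have hag : EqOn Φ.toFun Ψ.toFun (X ∩ Y) := by
    rw [hXY]; intro x hx; rw [h1 hx, h3 hx]
  have himg : halfU n ∩ halfD n ⊆ Φ.toFun '' (X ∩ Y) := by
    rw [hXY, h1.image_eq, φ.image_eq, halfU_inter_halfD]
  let Θ := Φ.glue Ψ hX.isClosed hY.isClosed hU.isClosed hL.isClosed hag himg
  have t1 : EqOn Θ.toFun Φ.toFun X := ConHomeo.glue_left _ _ _ _ _ _ _ _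
  have t2 : EqOn Θ.toFun Ψ.toFun Y := ConHomeo.glue_right _ _ _ _ _ _ _ _
  have hAX : A ⊆ X := subset_union_right.trans hX.1
  have hBY : B ⊆ Y := subset_union_right.trans hY.1
  refine ⟨union_subset_union hAX hBY, Θ.cast rfl (halfU_union_halfD n), ?_⟩
  show Θ.toFun '' (A ∪ B) = sphere 0 1
  rw [image_union, (t1.mono hAX).image_eq, (t2.mono hBY).image_eq, h2, h4, hemiU_union_hemiD]

/-- **Replacement** of the disc `B` in the sphere `A ∪ B` by the disc `D`. -/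
theorem ConBall.exists_replace {n : ℕ} {A B D g : Set E} (hA : ConBall n A g)
    (hB : ConBall n B g) (hD : ConBall n D g) (hAB : A ∩ B = g) (hAD : A ∩ D = g) :
    ∃ Φ : ConHomeo (A ∪ B) (A ∪ D), (∀ x ∈ A, Φ.toFun x = x) ∧ Φ.toFun '' B = D := by
  obtain ⟨Φ, h1, h2⟩ := hA.extend_sphere hB hA hD hAB hAD (ConHomeo.refl hA.conicalSet) (by
    show (fun x => x) '' g = g
    rw [image_id'])
  exact ⟨Φ, fun x hx => h1 hx, h2⟩

end P073
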