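import Vale.Agent.P073.PR.Circle

/-!
# P073, block PR: pairwise non-interleaving pairs of points of a conical circle which bounds a
convex body are joined by disjoint arcs in the body
-/

open Set Metric Topology Filter

namespace P073

variable {E : Type*} [NormedAddCommGroup E] [NormedSpace ℝ E]

theorem exists_param {h : ℝ} (hh : |h| < 1) {v : Fin 2 → ℝ} (hv : v ∈ sphere (0 : Fin 2 → ℝ) 1)
    (hne : v ≠ ![1, h]) : ∃ t, 0 < t ∧ t < 8 ∧ kap h t = v := by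
  rw [← kap_image hh] at hv
  obtain ⟨t, ht, rfl⟩ := hv
  refine ⟨t, lt_of_le_of_ne ht.1 ?_, ht.2, rfl⟩
  rintro rfl
  exact hne (kap_zero h)

/-- the arc from `a` to `b` -/
theorem kap_side {h : ℝ} (hh : |h| < 1) {a b c d : ℝ} (ha : 0 < a) (hab : a < b) (hb : b < 8)
    (hc : 0 < c) (hcd : c < d) (hd : d < 8) (hca : c ≠ a) (hcb : c ≠ b) (hda : d ≠ a)
    (hdb : d ≠ b)
    (hA : ∃ A : Set (Fin 2 → ℝ), IsPreconnected A ∧
      A ⊆ sphere (0 : Fin 2 → ℝ) 1 \ {kap h a, kap h b} ∧ kap h c ∈ A ∧ kap h d ∈ A) :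
    (c ∈ Ioo a b ∧ d ∈ Ioo a b) ∨ (c ∉ Icc a b ∧ d ∉ Icc a b) := by
  obtain ⟨A, hAc, hAS, hcA, hdA⟩ := hA
  have hC : IsClosed (kap h '' Icc a b) :=
    (isCompact_Icc.image (continuous_kap h)).isClosed
  have hD : IsClosed (kap h '' Icc 0 a ∪ kap h '' Icc b 8) :=
    ((isCompact_Icc.image (continuous_kap h)).isClosed).union
      (isCompact_Icc.image (continuous_kap h)).isClosed
  have inj := kap_injOn hh
  have h8 : kap h 8 = kap h 0 := by rw [kap_zero, kap_eight]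
  have hCval : ∀ u, 0 < u → u < 8 → kap h u ∈ kap h '' Icc a b → u ∈ Icc a b := by
    rintro u h0 h1 ⟨w, hw, hwu⟩
    have := inj ⟨ha.le.trans hw.1, hw.2.trans_lt hb⟩ ⟨h0.le, h1⟩ hwu
    rwa [← this]
  have hDval : ∀ u, 0 < u → u < 8 → kap h u ∈ kap h '' Icc 0 a ∪ kap h '' Icc b 8 →
      u ∈ Icc 0 a ∨ u ∈ Icc b 8 := by
    rintro u h0 h1 (⟨w, hw, hwu⟩ | ⟨w, hw, hwu⟩)
    · have := inj ⟨hw.1, hw.2.trans_lt (hab.trans hb)⟩ ⟨h0.le, h1⟩ hwu
      left; rwa [← this]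
    · rcases hw.2.lt_or_eq with h2 | h2
      · have := inj ⟨(ha.trans hab).le.trans hw.1, h2⟩ ⟨h0.le, h1⟩ hwu
        right; rwa [← this]
      · rw [h2, h8] at hwu
        have := inj ⟨le_rfl, by norm_num⟩ ⟨h0.le, h1⟩ hwu
        exact absurd this h0.ne
  have hsub : A ⊆ kap h '' Icc a b ∪ (kap h '' Icc 0 a ∪ kap h '' Icc b 8) := by
    intro v hv
    have := (hAS hv).1
    rw [← kap_image hh] at this
    obtain ⟨t, ht, rfl⟩ := this
    rcases le_total t a with h1 | h1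
    · exact Or.inr (Or.inl ⟨t, ⟨ht.1, h1⟩, rfl⟩)
    · rcases le_total t b with h2 | h2
      · exact Or.inl ⟨t, ⟨h1, h2⟩, rfl⟩
      · exact Or.inr (Or.inr ⟨t, ⟨h2, ht.2.le⟩, rfl⟩)
  rcases IsPreconnected.subset_or hAc hC hD hsub (by
    rintro _ hvA ⟨u, hu, rfl⟩ hvD
    have hmiss := (hAS hvA).2
    rcases hDval u (ha.trans_le hu.1) (hu.2.trans_lt hb) hvD with h1 | h1
    · exact hmiss (Or.inl (by rw [le_antisymm h1.2 hu.1]))
    · exact hmiss (Or.inr (by rw [le_antisymm hu.2 h1.1]; rfl))) with h1 | h1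
  · left
    have c1 := hCval c hc (hcd.trans hd) (h1 hcA)
    have d1 := hCval d (hc.trans hcd) hd (h1 hdA)
    exact ⟨⟨lt_of_le_of_ne c1.1 hca.symm, lt_of_le_of_ne c1.2 hcb⟩,
      ⟨lt_of_le_of_ne d1.1 hda.symm, lt_of_le_of_ne d1.2 hdb⟩⟩
  · right
    constructor
    · rintro ⟨h2, h3⟩
      rcases hDval c hc (hcd.trans hd) (h1 hcA) with h4 | h4
      · exact hca (le_antisymm h4.2 h2)
      · exact hcb (le_antisymm h3 h4.1)
    · rintro ⟨h2, h3⟩
      rcases hDval d (hc.trans hcd) hd (h1 hdA) with h4 | h4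
      · exact hda (le_antisymm h4.2 h2)
      · exact hdb (le_antisymm h3 h4.1)

/-- laminar arcs on the standard circle -/
theorem exists_laminar_arcs_std {J : Type*} [Finite J] (x y : J → Fin 2 → ℝ)
    (hx : ∀ j, x j ∈ sphere (0 : Fin 2 → ℝ) 1) (hy : ∀ j, y j ∈ sphere (0 : Fin 2 → ℝ) 1)
    (hxy : ∀ j, x j ≠ y j)
    (hdis : ∀ i j, i ≠ j → Disjoint ({x i, y i} : Set (Fin 2 → ℝ)) {x j, y j})
    (hni : ∀ i j, i ≠ j → ∃ A : Set (Fin 2 → ℝ), IsPreconnected A ∧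
      A ⊆ sphere (0 : Fin 2 → ℝ) 1 \ {x j, y j} ∧ x i ∈ A ∧ y i ∈ A) :
    ∃ Δ : J → Set (Fin 2 → ℝ), (∀ j, ConBall 1 (Δ j) {x j, y j}) ∧
      (∀ j, Δ j ⊆ sphere (0 : Fin 2 → ℝ) 1) ∧
      ∀ i j, i ≠ j → Disjoint (Δ i) (Δ j) ∨ Δ i ⊆ Δ j \ {x j, y j} ∨ Δ j ⊆ Δ i \ {x i, y i} := by
  classical
  -- the base point
  obtain ⟨h, hh, hbase⟩ : ∃ h : ℝ, |h| < 1 ∧ ∀ j, ![1, h] ≠ x j ∧ ![1, h] ≠ y j := by
    have hinf : (Ioo (-1:ℝ) 1).Infinite := Ioo_infinite (by norm_num)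
    have hfin : (range (fun j => x j 1) ∪ range (fun j => y j 1)).Finite :=
      (finite_range _).union (finite_range _)
    obtain ⟨h, hh, hn⟩ := (hinf.sdiff hfin).nonempty
    refine ⟨h, abs_lt.2 hh, fun j => ⟨fun he => hn (Or.inl ⟨j, ?_⟩), fun he => hn (Or.inr ⟨j, ?_⟩)⟩⟩
    · show x j 1 = h
      rw [← he]; rfl
    · show y j 1 = h
      rw [← he]; rfl
  have hab : ∀ j, ∃ a b : ℝ, 0 < a ∧ a < b ∧ b < 8 ∧
      ((kap h a = x j ∧ kap h b = y j) ∨ (kap h a = y j ∧ kap h b = x j)) := by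
    intro j
    obtain ⟨s, hs0, hs8, hs⟩ := exists_param hh (hx j) (hbase j).1.symm
    obtain ⟨t, ht0, ht8, ht⟩ := exists_param hh (hy j) (hbase j).2.symm
    have hst : s ≠ t := by rintro rfl; exact hxy j (hs.symm.trans ht)
    rcases lt_or_gt_of_ne hst with h1 | h1
    · exact ⟨s, t, hs0, h1, ht8, Or.inl ⟨hs, ht⟩⟩
    · exact ⟨t, s, ht0, h1, hs8, Or.inr ⟨ht, hs⟩⟩
  choose a b ha hlt hb hval using hab
  have hpair : ∀ j, ({kap h (a j), kap h (b j)} : Set (Fin 2 → ℝ)) = {x j, y j} := by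
    intro j
    rcases hval j with ⟨h1, h2⟩ | ⟨h1, h2⟩
    · rw [h1, h2]
    · rw [h1, h2, Set.pair_comm]
  have hne : ∀ i j, i ≠ j → ∀ u ∈ ({a i, b i} : Set ℝ), ∀ w ∈ ({a j, b j} : Set ℝ), u ≠ w := by
    rintro i j hij u hu w hw rfl
    have h1 : kap h u ∈ ({x i, y i} : Set (Fin 2 → ℝ)) := by
      rw [← hpair]
      rcases hu with rfl | rfl
      · exact Or.inl rfl
      · exact Or.inr rfl
    have h2 : kap h u ∈ ({x j, y j} : Set (Fin 2 → ℝ)) := by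
      rw [← hpair]
      rcases hw with rfl | rfl
      · exact Or.inl rfl
      · exact Or.inr rfl
    exact Set.disjoint_left.1 (hdis i j hij) h1 h2
  have hside : ∀ i j, i ≠ j → (a i ∈ Ioo (a j) (b j) ∧ b i ∈ Ioo (a j) (b j)) ∨
      (a i ∉ Icc (a j) (b j) ∧ b i ∉ Icc (a j) (b j)) := by
    intro i j hij
    refine kap_side hh (ha j) (hlt j) (hb j) (ha i) (hlt i) (hb i)
      (hne i j hij _ (Or.inl rfl) _ (Or.inl rfl)) (hne i j hij _ (Or.inl rfl) _ (Or.inr rfl))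
      (hne i j hij _ (Or.inr rfl) _ (Or.inl rfl)) (hne i j hij _ (Or.inr rfl) _ (Or.inr rfl)) ?_
    obtain ⟨A, h1, h2, h3, h4⟩ := hni i j hij
    refine ⟨A, h1, by rw [hpair]; exact h2, ?_, ?_⟩
    · rcases hval i with ⟨h5, -⟩ | ⟨h5, -⟩ <;> rw [h5] <;> assumption
    · rcases hval i with ⟨-, h5⟩ | ⟨-, h5⟩ <;> rw [h5] <;> assumption
  have inj := kap_injOn hh
  have hIco : ∀ j, Icc (a j) (b j) ⊆ Ico (0:ℝ) 8 := fun j u hu =>
    ⟨(ha j).le.trans hu.1, hu.2.trans_lt (hb j)⟩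
  have hinc : ∀ i j, Icc (a i) (b i) ⊆ Ioo (a j) (b j) →
      kap h '' Icc (a i) (b i) ⊆ kap h '' Icc (a j) (b j) \ {x j, y j} := by
    rintro i j hsub _ ⟨u, hu, rfl⟩
    refine ⟨⟨u, Ioo_subset_Icc_self (hsub hu), rfl⟩, ?_⟩
    rw [← hpair]
    rintro (he | he)
    · exact (hsub hu).1.ne' (inj (hIco i hu) (hIco j (left_mem_Icc.2 (hlt j).le)) he)
    · exact (hsub hu).2.ne (inj (hIco i hu) (hIco j (right_mem_Icc.2 (hlt j).le)) he)
  have hdisj : ∀ i j, Disjoint (Icc (a i) (b i)) (Icc (a j) (b j)) →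
      Disjoint (kap h '' Icc (a i) (b i)) (kap h '' Icc (a j) (b j)) := by
    intro i j hd
    rw [Set.disjoint_left] at hd ⊢
    rintro _ ⟨u, hu, rfl⟩ ⟨w, hw, he⟩
    have := inj (hIco j hw) (hIco i hu) he
    exact hd hu (this ▸ hw)
  refine ⟨fun j => kap h '' Icc (a j) (b j), fun j => ?_, fun j => ?_, ?_⟩
  · rw [← hpair]
    exact conBall_kap hh (ha j).le (hlt j) (hb j)
  · rw [← kap_image hh]
    exact image_mono (hIco j)
  · intro i j hij
    rcases hside i j hij with ⟨h1, h2⟩ | ⟨h1, h2⟩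
    · right; left
      exact hinc i j fun u hu => ⟨h1.1.trans_le hu.1, hu.2.trans_lt h2.2⟩
    · -- both outside
      have h1' : a i < a j ∨ b j < a i := by
        by_contra hcon; push Not at hcon; exact h1 ⟨hcon.1, hcon.2⟩
      have h2' : b i < a j ∨ b j < b i := by
        by_contra hcon; push Not at hcon; exact h2 ⟨hcon.1, hcon.2⟩
      rcases h1' with h3 | h3
      · rcases h2' with h4 | h4
        · left
          refine hdisj i j (Set.disjoint_left.2 fun u hu hu' => ?_)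
          linarith [hu.2, hu'.1]
        · right; right
          exact hinc j i fun u hu => ⟨h3.trans_le hu.1, hu.2.trans_lt h4⟩
      · left
        refine hdisj i j (Set.disjoint_left.2 fun u hu hu' => ?_)
        linarith [hu.1, hu'.2]

/-- laminar arcs on a conical circle -/
theorem exists_laminar_arcs {J : Type*} [Finite J] {S : Set E} (hS : ConSphere 1 S) (x y : J → E)
    (hx : ∀ j, x j ∈ S) (hy : ∀ j, y j ∈ S) (hxy : ∀ j, x j ≠ y j)
    (hdis : ∀ i j, i ≠ j → Disjoint ({x i, y i} : Set E) {x j, y j})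
    (hni : ∀ i j, i ≠ j → ∃ A : Set E, IsPreconnected A ∧
      A ⊆ S \ {x j, y j} ∧ x i ∈ A ∧ y i ∈ A) :
    ∃ Δ : J → Set E, (∀ j, ConBall 1 (Δ j) {x j, y j}) ∧ (∀ j, Δ j ⊆ S) ∧
      ∀ i j, i ≠ j → Disjoint (Δ i) (Δ j) ∨ Δ i ⊆ Δ j \ {x j, y j} ∨ Δ j ⊆ Δ i \ {x i, y i} := by
  obtain ⟨φ⟩ := hS
  have himg : ∀ j, ({φ.toFun (x j), φ.toFun (y j)} : Set (Fin 2 → ℝ)) =
      φ.toFun '' {x j, y j} := fun j => (image_pair _ _ _).symm
  have hpS : ∀ j, ({x j, y j} : Set E) ⊆ S := by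
    rintro j z (rfl | rfl)
    · exact hx j
    · exact hy j
  obtain ⟨Δ, h1, h2, h3⟩ := exists_laminar_arcs_std (fun j => φ.toFun (x j))
    (fun j => φ.toFun (y j)) (fun j => φ.mapsTo (hx j)) (fun j => φ.mapsTo (hy j))
    (fun j h => hxy j (φ.injOn (hx j) (hy j) h)) (by
      intro i j hij
      rw [himg, himg, Set.disjoint_left]
      rintro _ ⟨u, hu, rfl⟩ ⟨w, hw, he⟩
      have := φ.injOn (hpS j hw) (hpS i hu) he
      exact Set.disjoint_left.1 (hdis i j hij) hu (this ▸ hw)) (by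
      intro i j hij
      obtain ⟨A, a1, a2, a3, a4⟩ := hni i j hij
      refine ⟨φ.toFun '' A, a1.image _ (φ.cont.mono fun z hz => (a2 hz).1), ?_,
        mem_image_of_mem _ a3, mem_image_of_mem _ a4⟩
      rintro _ ⟨z, hz, rfl⟩
      refine ⟨φ.mapsTo (a2 hz).1, ?_⟩
      rw [himg]
      rintro ⟨w, hw, he⟩
      have := φ.injOn (hpS j hw) (a2 hz).1 he
      exact (a2 hz).2 (this ▸ hw))
  have hinv : ∀ j, φ.invFun '' {φ.toFun (x j), φ.toFun (y j)} = {x j, y j} := by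
    intro j
    rw [image_pair, φ.left_inv (hx j), φ.left_inv (hy j)]
  refine ⟨fun j => φ.invFun '' Δ j, fun j => ?_, fun j => ?_, fun i j hij => ?_⟩
  · have := (h1 j).image φ.symm (h2 j)
    rw [← hinv j]
    exact this
  · rintro _ ⟨z, hz, rfl⟩
    exact φ.mapsTo_inv (h2 j hz)
  · have aux : ∀ i j, Δ i ⊆ Δ j \ {φ.toFun (x j), φ.toFun (y j)} →
        φ.invFun '' Δ i ⊆ φ.invFun '' Δ j \ {x j, y j} := by
      rintro i j h _ ⟨z, hz, rfl⟩
      refine ⟨⟨z, (h hz).1, rfl⟩, ?_⟩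
      rintro (he | he)
      · refine (h hz).2 (Or.inl ?_)
        rw [← he, φ.right_inv (h2 i hz)]
      · refine (h hz).2 (Or.inr ?_)
        show z = φ.toFun (y j)
        rw [← (show φ.invFun z = y j from he), φ.right_inv (h2 i hz)]
    rcases h3 i j hij with h | h | h
    · left
      rw [Set.disjoint_left] at h ⊢
      rintro _ ⟨z, hz, rfl⟩ ⟨w, hw, he⟩
      have := φ.symm.injOn (h2 j hw) (h2 i hz) he
      exact h hz (this ▸ hw)
    · exact Or.inr (Or.inl (aux i j h))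
    · exact Or.inr (Or.inr (aux j i h))

/-- **Arcs**: non-interleaving pairs of points of the boundary `S` of a (two-dimensional) convex
body are joined by disjoint arcs in the body, meeting `S` only in their end points. -/
theorem exists_arcs {J : Type*} [Finite J] {S : Set E} (hB : RayBase S) (hS : ConSphere 1 S)
    (x y : J → E) (hx : ∀ j, x j ∈ S) (hy : ∀ j, y j ∈ S) (hxy : ∀ j, x j ≠ y j)
    (hdis : ∀ i j, i ≠ j → Disjoint ({x i, y i} : Set E) {x j, y j})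
    (hni : ∀ i j, i ≠ j → ∃ A : Set E, IsPreconnected A ∧
      A ⊆ S \ {x j, y j} ∧ x i ∈ A ∧ y i ∈ A) :
    ∃ D : J → Set E, (∀ j, ConBall 1 (D j) {x j, y j}) ∧ (∀ j, D j ∩ S = {x j, y j}) ∧
      (∀ j, D j ⊆ coneSet S) ∧ ∀ i j, i ≠ j → Disjoint (D i) (D j) := by
  obtain ⟨Δ, h1, h2, h3⟩ := exists_laminar_arcs hS x y hx hy hxy hdis hni
  exact exists_fill hB one_ne_zero (fun j => {x j, y j}) Δ h1 h2 hdis h3

end P073
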