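import Vale.Agent.P073.PR.Arcs
import Vale.Agent.P073.PR720.Realise

/-!
# P073, block PR: arcs in a conical 2-ball, discs in a conical 3-ball
-/

open Set Metric Topology Filter

namespace P073

variable {E : Type*} [NormedAddCommGroup E] [NormedSpace ℝ E]

theorem conSphere_std (n : ℕ) : ConSphere n (sphere (0 : Fin (n + 1) → ℝ) 1) :=
  ⟨ConHomeo.refl (conicalSet_sphere_pi (n + 1))⟩

/-- **Arcs in a conical disc** `q` with boundary `dq`: non-interleaving pairs of boundary points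
are joined by disjoint arcs in `q`, meeting `dq` only in their end points. -/
theorem ConBall.exists_arcs {J : Type*} [Finite J] {q dq : Set E} (hq : ConBall 2 q dq)
    (x y : J → E) (hx : ∀ j, x j ∈ dq) (hy : ∀ j, y j ∈ dq) (hxy : ∀ j, x j ≠ y j)
    (hdis : ∀ i j, i ≠ j → Disjoint ({x i, y i} : Set E) {x j, y j})
    (hni : ∀ i j, i ≠ j → ∃ A : Set E, IsPreconnected A ∧
      A ⊆ dq \ {x j, y j} ∧ x i ∈ A ∧ y i ∈ A) :
    ∃ D : J → Set E, (∀ j, ConBall 1 (D j) {x j, y j}) ∧ (∀ j, D j ⊆ q) ∧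
      (∀ j, D j ∩ dq = {x j, y j}) ∧ ∀ i j, i ≠ j → Disjoint (D i) (D j) := by
  obtain ⟨hdq, φ, hφ⟩ := hq
  have hmem : ∀ z ∈ dq, φ.toFun z ∈ sphere (0 : Fin 2 → ℝ) 1 := fun z hz =>
    hφ ▸ mem_image_of_mem _ hz
  have hpS : ∀ j, ({x j, y j} : Set E) ⊆ dq := by
    rintro j z (rfl | rfl)
    · exact hx j
    · exact hy j
  have himg : ∀ j, ({φ.toFun (x j), φ.toFun (y j)} : Set (Fin 2 → ℝ)) =
      φ.toFun '' {x j, y j} := fun j => (image_pair _ _ _).symm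
  obtain ⟨D, d1, d2, d3, d4⟩ := P073.exists_arcs (rayBase_sphere_pi 2) (conSphere_std 1)
    (fun j => φ.toFun (x j)) (fun j => φ.toFun (y j)) (fun j => hmem _ (hx j))
    (fun j => hmem _ (hy j)) (fun j h => hxy j (φ.injOn (hdq (hx j)) (hdq (hy j)) h)) (by
      intro i j hij
      rw [himg, himg, Set.disjoint_left]
      rintro _ ⟨u, hu, rfl⟩ ⟨w, hw, he⟩
      have := φ.injOn (hdq (hpS j hw)) (hdq (hpS i hu)) he
      exact Set.disjoint_left.1 (hdis i j hij) hu (this ▸ hw)) (by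
      intro i j hij
      obtain ⟨A, a1, a2, a3, a4⟩ := hni i j hij
      refine ⟨φ.toFun '' A, a1.image _ (φ.cont.mono fun z hz => hdq (a2 hz).1), ?_,
        mem_image_of_mem _ a3, mem_image_of_mem _ a4⟩
      rintro _ ⟨z, hz, rfl⟩
      refine ⟨hmem _ (a2 hz).1, ?_⟩
      rw [himg]
      rintro ⟨w, hw, he⟩
      have := φ.injOn (hdq (hpS j hw)) (hdq (a2 hz).1) he
      exact (a2 hz).2 (this ▸ hw))
  rw [coneSet_sphere_pi 2] at d3
  have hinv : ∀ j, φ.invFun '' {φ.toFun (x j), φ.toFun (y j)} = {x j, y j} := by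
    intro j
    rw [image_pair, φ.left_inv (hdq (hx j)), φ.left_inv (hdq (hy j))]
  refine ⟨fun j => φ.invFun '' D j, fun j => ?_, fun j => ?_, fun j => ?_, fun i j hij => ?_⟩
  · rw [← hinv j]
    exact (d1 j).image φ.symm (d3 j)
  · rintro _ ⟨z, hz, rfl⟩
    exact φ.mapsTo_inv (d3 j hz)
  · apply Subset.antisymm
    · rintro _ ⟨⟨z, hz, rfl⟩, hz'⟩
      have h1 : z ∈ D j ∩ sphere (0 : Fin 2 → ℝ) 1 := by
        refine ⟨hz, ?_⟩
        have := hmem _ hz'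
        rwa [φ.right_inv (d3 j hz)] at this
      rw [d2 j] at h1
      rw [← hinv j]
      exact mem_image_of_mem _ h1
    · intro z hz
      refine ⟨?_, hpS j hz⟩
      rw [← hinv j] at hz
      obtain ⟨w, hw, rfl⟩ := hz
      exact ⟨w, (d1 j).1 hw, rfl⟩
  · rw [Set.disjoint_left]
    rintro _ ⟨z, hz, rfl⟩ ⟨w, hw, he⟩
    have := φ.symm.injOn (d3 j hw) (d3 i hz) he
    exact Set.disjoint_left.1 (d4 i j hij) hz (this ▸ hw)

/-- **Discs in a conical 3-ball.** -/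
theorem ConBall.discFill {C bd : Set E} (hC : ConBall 3 C bd)
    (hJS : JordanSch 2 (sphere (0 : Fin 3 → ℝ) 1)) : PR720.DiscFill C bd := by
  obtain ⟨hbd, φ, hφ⟩ := hC
  have hmem : ∀ z ∈ bd, φ.toFun z ∈ sphere (0 : Fin 3 → ℝ) 1 := fun z hz =>
    hφ ▸ mem_image_of_mem _ hz
  intro N _ γ h1 h2 h3
  have hcγ : ∀ n, ConicalSet (γ n) := by
    intro n
    obtain ⟨ψ⟩ := h1 n
    exact ψ.conicalSet_left
  have k1 : ∀ n, ConSphere 1 (φ.toFun '' γ n) := by
    intro n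
    obtain ⟨ψ⟩ := h1 n
    exact ⟨(φ.restr (hcγ n) ((h2 n).trans hbd)).symm.trans ψ⟩
  have k2 : ∀ n, φ.toFun '' γ n ⊆ sphere (0 : Fin 3 → ℝ) 1 := by
    rintro n _ ⟨z, hz, rfl⟩
    exact hmem z (h2 n hz)
  have k3 : ∀ n m, n ≠ m → Disjoint (φ.toFun '' γ n) (φ.toFun '' γ m) := by
    intro n m hnm
    rw [Set.disjoint_left]
    rintro _ ⟨z, hz, rfl⟩ ⟨w, hw, he⟩
    have := φ.injOn (hbd (h2 m hw)) (hbd (h2 n hz)) he
    exact Set.disjoint_left.1 (h3 n m hnm) hz (this ▸ hw)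
  obtain ⟨D, d1, d2, d3, d4⟩ := P073.exists_discs (rayBase_sphere_pi 3) hJS
    (fun n => φ.toFun '' γ n) k1 k2 k3
  rw [coneSet_sphere_pi 3] at d3
  have hinv : ∀ n, φ.invFun '' (φ.toFun '' γ n) = γ n := by
    intro n
    rw [image_image]
    have : ∀ x ∈ γ n, φ.invFun (φ.toFun x) = x := fun x hx => φ.left_inv (hbd (h2 n hx))
    rw [image_congr this, image_id']
  refine ⟨fun n => φ.invFun '' D n, fun n => ?_, fun n => ?_, fun n => ?_, fun n m hnm => ?_⟩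
  · have := (d1 n).image φ.symm (d3 n)
    rw [← hinv n]
    exact this
  · apply Subset.antisymm
    · rintro _ ⟨⟨z, hz, rfl⟩, hz'⟩
      have h4 : z ∈ D n ∩ sphere (0 : Fin 3 → ℝ) 1 := by
        refine ⟨hz, ?_⟩
        have := hmem _ hz'
        rwa [φ.right_inv (d3 n hz)] at this
      rw [d2 n] at h4
      rw [← hinv n]
      exact mem_image_of_mem _ h4
    · intro z hz
      refine ⟨?_, h2 n hz⟩
      rw [← hinv n] at hz
      obtain ⟨w, hw, rfl⟩ := hz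
      exact ⟨w, (d1 n).1 hw, rfl⟩
  · rintro _ ⟨z, hz, rfl⟩
    exact φ.mapsTo_inv (d3 n hz)
  · rw [Set.disjoint_left]
    rintro _ ⟨z, hz, rfl⟩ ⟨w, hw, he⟩
    have := φ.symm.injOn (d3 m hw) (d3 n hz) he
    exact Set.disjoint_left.1 (d4 n m hnm) hz (this ▸ hw)

end P073
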