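import Vale.Agent.P073.PR.Sphere

/-!
# P073, block PR: an explicit parametrisation of the boundary of the square
-/

open Set Metric Topology Filter

namespace P073

/-- first coordinate of the perimeter parametrisation. -/
noncomputable def cx (t : ℝ) : ℝ := max (-1) (min 1 (|t - 4| - 2))

/-- second coordinate of the perimeter parametrisation. -/
noncomputable def cy (t : ℝ) : ℝ := max (-1) (min 1 (max (2 - |t - 2|) (t - 8)))

/-- the vertical reparametrisation moving `0` to `h`. -/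
noncomputable def mh (h y : ℝ) : ℝ := h + y - h * |y|

/-- perimeter parametrisation starting at `(1,h)`. -/
noncomputable def kap (h t : ℝ) : Fin 2 → ℝ := ![cx t, mh h (cy t)]

theorem clip_eq {z : ℝ} (h : |z| ≤ 1) : max (-1) (min 1 z) = z := by
  rw [abs_le] at h
  rw [min_eq_right h.2, max_eq_right h.1]

theorem clip_one {z : ℝ} (h : 1 ≤ z) : max (-1) (min 1 z) = 1 := by
  rw [min_eq_left h, max_eq_right (by norm_num)]

theorem clip_neg_one {z : ℝ} (h : z ≤ -1) : max (-1) (min 1 z) = -1 := by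
  rw [min_eq_right (by linarith), max_eq_left h]

theorem c01 {t : ℝ} (h0 : 0 ≤ t) (h1 : t ≤ 1) : cx t = 1 ∧ cy t = t := by
  constructor
  · unfold cx
    rw [abs_of_nonpos (by linarith), clip_one (by linarith)]
  · unfold cy
    have h2 : max (2 - |t - 2|) (t - 8) = t := by
      rw [abs_of_nonpos (by linarith), max_eq_left (by linarith)]; ring
    rw [h2, clip_eq (abs_le.2 ⟨by linarith, by linarith⟩)]

theorem c13 {t : ℝ} (h0 : 1 ≤ t) (h1 : t ≤ 3) : cx t = 2 - t ∧ cy t = 1 := by
  constructor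
  · unfold cx
    rw [abs_of_nonpos (by linarith), clip_eq (abs_le.2 ⟨by linarith, by linarith⟩)]
    ring
  · unfold cy
    have h2 : |t - 2| ≤ 1 := abs_le.2 ⟨by linarith, by linarith⟩
    exact clip_one (le_max_of_le_left (by linarith))

theorem c35 {t : ℝ} (h0 : 3 ≤ t) (h1 : t ≤ 5) : cx t = -1 ∧ cy t = 4 - t := by
  constructor
  · unfold cx
    have h2 : |t - 4| ≤ 1 := abs_le.2 ⟨by linarith, by linarith⟩
    exact clip_neg_one (by linarith)
  · unfold cy
    have h2 : max (2 - |t - 2|) (t - 8) = 4 - t := by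
      rw [abs_of_nonneg (by linarith), max_eq_left (by linarith)]; ring
    rw [h2, clip_eq (abs_le.2 ⟨by linarith, by linarith⟩)]

theorem c57 {t : ℝ} (h0 : 5 ≤ t) (h1 : t ≤ 7) : cx t = t - 6 ∧ cy t = -1 := by
  constructor
  · unfold cx
    rw [abs_of_nonneg (by linarith), clip_eq (abs_le.2 ⟨by linarith, by linarith⟩)]
    ring
  · unfold cy
    rw [abs_of_nonneg (by linarith), clip_neg_one (max_le (by linarith) (by linarith))]

theorem c78 {t : ℝ} (h0 : 7 ≤ t) (h1 : t ≤ 8) : cx t = 1 ∧ cy t = t - 8 := by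
  constructor
  · unfold cx
    rw [abs_of_nonneg (by linarith), clip_one (by linarith)]
  · unfold cy
    have h2 : max (2 - |t - 2|) (t - 8) = t - 8 := by
      rw [abs_of_nonneg (by linarith), max_eq_right (by linarith)]
    rw [h2, clip_eq (abs_le.2 ⟨by linarith, by linarith⟩)]

theorem c_cases {t : ℝ} (h0 : 0 ≤ t) (h8 : t ≤ 8) :
    (t ≤ 1 ∧ cx t = 1 ∧ cy t = t) ∨ (1 ≤ t ∧ t ≤ 3 ∧ cx t = 2 - t ∧ cy t = 1) ∨
    (3 ≤ t ∧ t ≤ 5 ∧ cx t = -1 ∧ cy t = 4 - t) ∨ (5 ≤ t ∧ t ≤ 7 ∧ cx t = t - 6 ∧ cy t = -1) ∨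
    (7 ≤ t ∧ cx t = 1 ∧ cy t = t - 8) := by
  rcases le_total t 1 with h | h
  · exact Or.inl ⟨h, c01 h0 h⟩
  rcases le_total t 3 with h' | h'
  · exact Or.inr (Or.inl ⟨h, h', c13 h h'⟩)
  rcases le_total t 5 with h2 | h2
  · exact Or.inr (Or.inr (Or.inl ⟨h', h2, c35 h' h2⟩))
  rcases le_total t 7 with h3 | h3
  · exact Or.inr (Or.inr (Or.inr (Or.inl ⟨h2, h3, c57 h2 h3⟩)))
  · exact Or.inr (Or.inr (Or.inr (Or.inr ⟨h3, c78 h3 h8⟩)))

theorem c_inj {s t : ℝ} (hs0 : 0 ≤ s) (hs : s < 8) (ht0 : 0 ≤ t) (ht : t < 8)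
    (hx : cx s = cx t) (hy : cy s = cy t) : s = t := by
  rcases c_cases hs0 hs.le with ⟨a, b, c⟩ | ⟨a, a', b, c⟩ | ⟨a, a', b, c⟩ | ⟨a, a', b, c⟩ | ⟨a, b, c⟩ <;>
  rcases c_cases ht0 ht.le with ⟨d, e, f⟩ | ⟨d, d', e, f⟩ | ⟨d, d', e, f⟩ | ⟨d, d', e, f⟩ | ⟨d, e, f⟩ <;>
  rw [b, e] at hx <;> rw [c, f] at hy <;> linarith

theorem mem_sphere_fin2 (v : Fin 2 → ℝ) : v ∈ sphere (0 : Fin 2 → ℝ) 1 ↔
    |v 0| ≤ 1 ∧ |v 1| ≤ 1 ∧ (|v 0| = 1 ∨ |v 1| = 1) := by
  rw [mem_sphere_zero_iff_norm]
  constructor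
  · intro h
    have h0 := norm_le_pi_norm v 0
    have h1 := norm_le_pi_norm v 1
    rw [h, Real.norm_eq_abs] at h0 h1
    refine ⟨h0, h1, ?_⟩
    by_contra hcon
    push Not at hcon
    have h2 : ‖v‖ < 1 := by
      rw [pi_norm_lt_iff one_pos]
      intro i
      fin_cases i
      · exact lt_of_le_of_ne h0 hcon.1
      · exact lt_of_le_of_ne h1 hcon.2
    linarith
  · rintro ⟨h0, h1, h⟩
    apply le_antisymm
    · rw [pi_norm_le_iff_of_nonneg zero_le_one]
      intro i
      fin_cases i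
      · exact h0
      · exact h1
    · rcases h with h | h
      · rw [← h]; exact norm_le_pi_norm v 0
      · rw [← h]; exact norm_le_pi_norm v 1

theorem mh_abs_le {h y : ℝ} (hh : |h| < 1) (hy : |y| ≤ 1) : |mh h y| ≤ 1 := by
  unfold mh
  rw [abs_lt] at hh
  rcases le_total 0 y with h0 | h0
  · rw [abs_of_nonneg h0] at hy ⊢
    rw [abs_le]; constructor <;> nlinarith
  · rw [abs_of_nonpos h0] at hy ⊢
    rw [abs_le]; constructor <;> nlinarith

theorem mh_one (h : ℝ) : mh h 1 = 1 := by unfold mh; simp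
theorem mh_neg_one (h : ℝ) : mh h (-1) = -1 := by unfold mh; simp
theorem mh_zero (h : ℝ) : mh h 0 = h := by unfold mh; simp

theorem mh_strictMono {h : ℝ} (hh : |h| < 1) : StrictMono (mh h) := by
  intro y z hyz
  unfold mh
  rw [abs_lt] at hh
  rcases le_total 0 y with h0 | h0
  · have h1 : 0 ≤ z := h0.trans hyz.le
    rw [abs_of_nonneg h0, abs_of_nonneg h1]; nlinarith
  · rcases le_total 0 z with h1 | h1
    · rw [abs_of_nonpos h0, abs_of_nonneg h1]
      have e1 : y * (1 + h) ≤ 0 := mul_nonpos_of_nonpos_of_nonneg h0 (by linarith)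
      have e2 : 0 ≤ z * (1 - h) := mul_nonneg h1 (by linarith)
      rcases h0.lt_or_eq with h3 | h3
      · have : y * (1 + h) < 0 := mul_neg_of_neg_of_pos h3 (by linarith)
        linarith
      · have : 0 < z * (1 - h) := mul_pos (by linarith) (by linarith)
        linarith
    · rw [abs_of_nonpos h0, abs_of_nonpos h1]; nlinarith

/-- the inverse of `mh h` on `[-1,1]` exists -/
theorem mh_surj {h w : ℝ} (hh : |h| < 1) (hw : |w| ≤ 1) : ∃ y, |y| ≤ 1 ∧ mh h y = w := by
  rw [abs_lt] at hh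
  rw [abs_le] at hw
  rcases le_total h w with h0 | h0
  · refine ⟨(w - h) / (1 - h), ?_, ?_⟩
    · have h1 : 0 ≤ (w - h) / (1 - h) := div_nonneg (by linarith) (by linarith)
      rw [abs_of_nonneg h1, div_le_one (by linarith)]; linarith
    · have h1 : 0 ≤ (w - h) / (1 - h) := div_nonneg (by linarith) (by linarith)
      unfold mh
      rw [abs_of_nonneg h1]
      have : (1 - h) ≠ 0 := by linarith
      field_simp
      ring
  · refine ⟨(w - h) / (1 + h), ?_, ?_⟩
    · have h1 : (w - h) / (1 + h) ≤ 0 := div_nonpos_of_nonpos_of_nonneg (by linarith) (by linarith)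
      rw [abs_of_nonpos h1, neg_le, le_div_iff₀ (by linarith)]; linarith
    · have h1 : (w - h) / (1 + h) ≤ 0 := div_nonpos_of_nonpos_of_nonneg (by linarith) (by linarith)
      unfold mh
      rw [abs_of_nonpos h1]
      have : (1 + h) ≠ 0 := by linarith
      field_simp
      ring

theorem c_bdry {t : ℝ} (h0 : 0 ≤ t) (h8 : t ≤ 8) :
    |cx t| ≤ 1 ∧ |cy t| ≤ 1 ∧ (|cx t| = 1 ∨ cy t = 1 ∨ cy t = -1) := by
  rcases c_cases h0 h8 with ⟨a, b, c⟩ | ⟨a, a', b, c⟩ | ⟨a, a', b, c⟩ | ⟨a, a', b, c⟩ | ⟨a, b, c⟩ <;>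
  rw [b, c]
  · exact ⟨by simp, by rw [abs_le]; constructor <;> linarith, by simp⟩
  · exact ⟨by rw [abs_le]; constructor <;> linarith, by simp, by simp⟩
  · exact ⟨by simp, by rw [abs_le]; constructor <;> linarith, by simp⟩
  · exact ⟨by rw [abs_le]; constructor <;> linarith, by simp, by simp⟩
  · exact ⟨by simp, by rw [abs_le]; constructor <;> linarith, by simp⟩

theorem c_surj {x y : ℝ} (hx : |x| ≤ 1) (hy : |y| ≤ 1) (h : |x| = 1 ∨ |y| = 1) :
    ∃ t ∈ Ico (0:ℝ) 8, cx t = x ∧ cy t = y := by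
  rw [abs_le] at hx hy
  rcases h with h | h
  · rcases eq_or_eq_neg_of_abs_eq h with h | h
    · rcases le_or_gt 0 y with h0 | h0
      · have := c01 h0 hy.2
        exact ⟨y, ⟨h0, by linarith⟩, by rw [this.1, h], this.2⟩
      · have := c78 (t := y + 8) (by linarith) (by linarith)
        exact ⟨y + 8, ⟨by linarith, by linarith⟩, by rw [this.1, h], by rw [this.2]; ring⟩
    · have := c35 (t := 4 - y) (by linarith) (by linarith)
      exact ⟨4 - y, ⟨by linarith, by linarith⟩, by rw [this.1, h], by rw [this.2]; ring⟩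
  · rcases eq_or_eq_neg_of_abs_eq h with h | h
    · have := c13 (t := 2 - x) (by linarith) (by linarith)
      exact ⟨2 - x, ⟨by linarith, by linarith⟩, by rw [this.1]; ring, by rw [this.2, h]⟩
    · have := c57 (t := x + 6) (by linarith) (by linarith)
      exact ⟨x + 6, ⟨by linarith, by linarith⟩, by rw [this.1]; ring, by rw [this.2, h]⟩

theorem kap_zero (h : ℝ) : kap h 0 = ![1, h] := by
  have := c01 (t := 0) le_rfl zero_le_one
  unfold kap; rw [this.1, this.2, mh_zero]

theorem kap_eight (h : ℝ) : kap h 8 = ![1, h] := by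
  have := c78 (t := 8) (by norm_num) le_rfl
  unfold kap; rw [this.1, this.2]; norm_num [mh_zero]

theorem kap_injOn {h : ℝ} (hh : |h| < 1) : InjOn (kap h) (Ico 0 8) := by
  intro s hs t ht hst
  have h0 : cx s = cx t := congrFun hst 0
  have h1 : mh h (cy s) = mh h (cy t) := congrFun hst 1
  exact c_inj hs.1 hs.2 ht.1 ht.2 h0 ((mh_strictMono hh).injective h1)

theorem kap_mem {h : ℝ} (hh : |h| < 1) {t : ℝ} (ht : t ∈ Icc (0:ℝ) 8) :
    kap h t ∈ sphere (0 : Fin 2 → ℝ) 1 := by
  obtain ⟨a, b, c⟩ := c_bdry ht.1 ht.2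
  rw [mem_sphere_fin2]
  refine ⟨a, mh_abs_le hh b, ?_⟩
  show |cx t| = 1 ∨ |mh h (cy t)| = 1
  rcases c with c | c | c
  · exact Or.inl c
  · right; rw [c, mh_one]; simp
  · right; rw [c, mh_neg_one]; simp

theorem kap_image {h : ℝ} (hh : |h| < 1) : kap h '' Ico 0 8 = sphere (0 : Fin 2 → ℝ) 1 := by
  apply Subset.antisymm
  · rintro _ ⟨t, ht, rfl⟩
    exact kap_mem hh (Ico_subset_Icc_self ht)
  · intro v hv
    rw [mem_sphere_fin2] at hv
    obtain ⟨a, b, c⟩ := hv
    obtain ⟨y, hy, hyv⟩ := mh_surj hh b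
    have : |v 0| = 1 ∨ |y| = 1 := by
      rcases c with c | c
      · exact Or.inl c
      · right
        rcases eq_or_eq_neg_of_abs_eq c with c | c
        · have : y = 1 := (mh_strictMono hh).injective (by rw [hyv, c, mh_one])
          rw [this]; simp
        · have : y = -1 := (mh_strictMono hh).injective (by rw [hyv, c, mh_neg_one])
          rw [this]; simp
    obtain ⟨t, ht, h1, h2⟩ := c_surj a hy this
    refine ⟨t, ht, ?_⟩
    funext i
    fin_cases i
    · exact h1
    · show mh h (cy t) = v 1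
      rw [h2, hyv]

theorem continuous_kap (h : ℝ) : Continuous (kap h) := by
  unfold kap cx cy mh
  refine continuous_pi fun i => ?_
  fin_cases i
  · show Continuous fun t : ℝ => max (-1) (min 1 (|t - 4| - 2))
    fun_prop
  · show Continuous fun t : ℝ => h + max (-1) (min 1 (max (2 - |t - 2|) (t - 8)))
      - h * |max (-1) (min 1 (max (2 - |t - 2|) (t - 8)))|
    fun_prop


theorem conicalOn_abs {X : Set ℝ} {a : ℝ → ℝ} (h : ConicalOn a X) (hc : ContinuousOn a X) :
    ConicalOn (fun t => |a t|) X := by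
  have : (fun t => |a t|) = fun t => max (a t) (-a t) := by
    funext t; exact abs_eq_max_neg
  rw [this]
  exact h.rmax h.neg hc hc.neg

theorem conicalOn_cx {X : Set ℝ} (hX : ConicalSet X) : ConicalOn cx X := by
  have h0 : ConicalOn (fun t : ℝ => |t - 4| - 2) X :=
    (conicalOn_abs ((conicalOn_id hX).sub (conicalOn_const 4 hX)) (by fun_prop)).sub
      (conicalOn_const 2 hX)
  exact (conicalOn_const (-1) hX).rmax ((conicalOn_const 1 hX).rmin h0 (by fun_prop)
    (by fun_prop)) (by fun_prop) (by fun_prop)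

theorem conicalOn_cy {X : Set ℝ} (hX : ConicalSet X) : ConicalOn cy X := by
  have h0 : ConicalOn (fun t : ℝ => 2 - |t - 2|) X :=
    (conicalOn_const 2 hX).sub
      (conicalOn_abs ((conicalOn_id hX).sub (conicalOn_const 2 hX)) (by fun_prop))
  have h1 : ConicalOn (fun t : ℝ => t - 8) X := (conicalOn_id hX).sub (conicalOn_const 8 hX)
  have h2 : ConicalOn (fun t : ℝ => max (2 - |t - 2|) (t - 8)) X :=
    h0.rmax h1 (by fun_prop) (by fun_prop)
  exact (conicalOn_const (-1) hX).rmax ((conicalOn_const 1 hX).rmin h2 (by fun_prop)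
    (by fun_prop)) (by fun_prop) (by fun_prop)

theorem continuous_cy : Continuous cy := by unfold cy; fun_prop

theorem conicalOn_kap (h : ℝ) {X : Set ℝ} (hX : ConicalSet X) : ConicalOn (kap h) X := by
  intro x hx
  refine conicalWithinAt_pi (hX x hx) fun i => ?_
  fin_cases i
  · exact conicalOn_cx hX x hx
  · have h1 : ConicalOn (fun t => h + cy t) X := (conicalOn_const h hX).add (conicalOn_cy hX)
    have h2 : ConicalOn (fun t => h • |cy t|) X :=
      (conicalOn_abs (conicalOn_cy hX) continuous_cy.continuousOn).const_smul h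
    exact (h1.sub h2) x hx

theorem conicalSet_Icc_real (s t : ℝ) : ConicalSet (Icc s t) := by
  have : Convex ℝ (Icc s t) := convex_Icc s t
  intro x hx
  refine ⟨1, one_pos, fun v _ hv a ha => ?_⟩
  have h1 : x + a • v = (1 - a) • x + a • (x + v) := by module
  rw [h1]
  exact this hx hv (by linarith [ha.2]) ha.1 (by ring)

/-- the interval as a conical `1`-ball -/
theorem conBall_Icc {s t : ℝ} (hst : s < t) : ConBall 1 (Icc s t) {s, t} := by
  have hts : (0:ℝ) < t - s := by linarith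
  let f : ℝ → Fin 1 → ℝ := fun x _ => (2 / (t - s)) * x + (-(s + t) / (t - s))
  have hfc : Continuous f := by fun_prop
  have hX := conicalSet_Icc_real s t
  have hcon : ConicalOn f (Icc s t) := by
    intro x hx
    refine conicalWithinAt_pi (hX x hx) fun i => ?_
    exact (((conicalOn_id hX).const_smul (2 / (t - s))).add (conicalOn_const _ hX)) x hx
  have hval : ∀ x, f x 0 = (2 * x - (s + t)) / (t - s) := by
    intro x; show (2 / (t - s)) * x + (-(s + t) / (t - s)) = _; ring
  have hinj : InjOn f (Icc s t) := by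
    intro x _ y _ hxy
    have h0 := congrFun hxy 0
    rw [hval, hval, div_left_inj' hts.ne'] at h0
    linarith
  have hn : ∀ v : Fin 1 → ℝ, ‖v‖ = |v 0| := by
    intro v
    apply le_antisymm
    · rw [pi_norm_le_iff_of_nonneg (abs_nonneg _)]
      intro i
      rw [Subsingleton.elim i 0]; rfl
    · exact norm_le_pi_norm v 0
  have himg : f '' Icc s t = closedBall (0 : Fin 1 → ℝ) 1 := by
    apply Subset.antisymm
    · rintro _ ⟨x, hx, rfl⟩
      rw [mem_closedBall_zero_iff, hn, hval, abs_le, le_div_iff₀ hts, div_le_one hts]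
      constructor <;> linarith [hx.1, hx.2]
    · intro v hv
      rw [mem_closedBall_zero_iff, hn, abs_le] at hv
      refine ⟨((t - s) * v 0 + (s + t)) / 2, ⟨by nlinarith [hv.1], by nlinarith [hv.2]⟩, ?_⟩
      funext i
      rw [Subsingleton.elim i 0, hval]
      field_simp
      ring
  refine ⟨?_, ConHomeo.ofCompact isCompact_Icc f hfc.continuousOn hinj hcon himg, ?_⟩
  · rintro x (rfl | rfl)
    · exact left_mem_Icc.2 hst.le
    · exact right_mem_Icc.2 hst.le
  · rw [ConHomeo.ofCompact_toFun]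
    apply Subset.antisymm
    · rintro _ ⟨x, hx, rfl⟩
      rw [mem_sphere_zero_iff_norm, hn, hval]
      rcases hx with rfl | rfl
      · rw [show 2 * x - (x + t) = -(t - x) by ring, neg_div, div_self hts.ne']; simp
      · rw [show 2 * x - (s + x) = x - s by ring, div_self hts.ne']; simp
    · intro v hv
      rw [mem_sphere_zero_iff_norm, hn] at hv
      rcases eq_or_eq_neg_of_abs_eq hv with h | h
      · refine ⟨t, Or.inr rfl, ?_⟩
        funext i
        rw [Subsingleton.elim i 0, hval, h, show 2 * t - (s + t) = t - s by ring, div_self hts.ne']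
      · refine ⟨s, Or.inl rfl, ?_⟩
        funext i
        rw [Subsingleton.elim i 0, hval, h, show 2 * s - (s + t) = -(t - s) by ring, neg_div,
          div_self hts.ne']

/-- `kap h` is injective on intervals which are not everything -/
theorem kap_injOn_Icc {h : ℝ} (hh : |h| < 1) {s t : ℝ} (hs : 0 ≤ s) (ht : t < 8) :
    InjOn (kap h) (Icc s t) :=
  (kap_injOn hh).mono fun x (hx : x ∈ Icc s t) =>
    (⟨hs.trans hx.1, hx.2.trans_lt ht⟩ : x ∈ Ico (0:ℝ) 8)

theorem conBall_kap {h : ℝ} (hh : |h| < 1) {s t : ℝ} (hs : 0 ≤ s) (hst : s < t) (ht : t < 8) :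
    ConBall 1 (kap h '' Icc s t) {kap h s, kap h t} := by
  have hX := conicalSet_Icc_real s t
  have h1 := (conBall_Icc hst).image (ConHomeo.ofCompact isCompact_Icc (kap h)
    (continuous_kap h).continuousOn (kap_injOn_Icc hh hs ht) (conicalOn_kap h hX) rfl)
    (le_refl _)
  rw [ConHomeo.ofCompact_toFun, image_pair] at h1
  exact h1

end P073
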