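import Vale.Agent.P073.PR.Nest
import Vale.Agent.P073.ConGlue

/-!
# P073, block PR: filling a laminar family of conical spheres in the boundary of a convex body
-/

open Set Metric Topology Filter

namespace P073

variable {E F : Type*} [NormedAddCommGroup E] [NormedSpace ℝ E]
  [NormedAddCommGroup F] [NormedSpace ℝ F]

/-- the cone over the boundary of a conical `n`-ball contained in a ray base is an `n`-ball. -/
theorem ConBall.coneSet_bdry {n : ℕ} (hn : n ≠ 0) {Δ Γ : Set E} (h : ConBall n Δ Γ)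
    (hΓ : RayBase Γ) : ConBall n (coneSet Γ) Γ := by
  have : Nonempty (Fin n) := ⟨⟨0, Nat.pos_of_ne_zero hn⟩⟩
  have hΓc := h.conicalSet_bdry
  obtain ⟨hΓΔ, φ, hφ⟩ := h
  let φ' : ConHomeo Γ (sphere (0 : Fin n → ℝ) 1) := (φ.restr hΓc hΓΔ).cast rfl hφ
  have hS := rayBase_sphere_pi n
  refine ⟨subset_coneSet, (ConHomeo.cone hΓ hS φ').cast rfl (coneSet_sphere_pi n), ?_⟩
  have h1 : ((ConHomeo.cone hΓ hS φ').cast rfl (coneSet_sphere_pi n)).toFun '' Γ
      = φ'.toFun '' Γ := by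
    apply image_congr
    intro x hx
    exact ConHomeo.cone_eqOn hΓ hS φ' hx
  rw [h1]
  exact φ'.image_eq

/-- the pushed copy of a conical ball is a conical ball with the same boundary. -/
theorem ConBall.pushed {n : ℕ} (hn : n ≠ 0) {B Δ Γ : Set E} (hB : RayBase B) (hΔB : Δ ⊆ B)
    (h : ConBall n Δ Γ) {r : ℝ} (h0 : 0 < r) (h1 : r < 1) : ConBall n (pushed r Γ Δ) Γ := by
  have hΓB : Γ ⊆ B := h.1.trans hΔB
  have hΓ : RayBase Γ := hB.mono h.isCompact_bdry hΓB
  have hΓc := h.conicalSet_bdry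
  have hcone := h.coneSet_bdry hn hΓ
  obtain ⟨ψ, hψ, -⟩ := hcone.exists_extend h (ConHomeo.refl hΓc)
  have hψ' : EqOn ψ.toFun id Γ := fun x hx => hψ hx
  obtain ⟨Φ, hΦ⟩ := exists_pushed_homeo hB hΓB hΔB hΓ hΓc h0 h1 ψ hψ'
  have h2 := hcone.image Φ (subset_refl _)
  rw [Φ.image_eq] at h2
  have h3 : Φ.toFun '' Γ = Γ := by
    rw [image_congr hΦ, image_id]
  rwa [h3] at h2

/-- laminar families: radii. -/
theorem exists_radii {J T : Type*} [Finite J] (Γ Δ : J → Set T) (hΓΔ : ∀ j, Γ j ⊆ Δ j)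
    (hne : ∀ j, (Γ j).Nonempty) :
    ∃ r : J → ℝ, (∀ j, 0 < r j ∧ r j < 1) ∧ ∀ i j, i ≠ j → Δ i ⊆ Δ j \ Γ j → r j < r i := by
  classical
  cases nonempty_fintype J
  let c : J → ℕ := fun j => (Finset.univ.filter fun i => Δ i ⊆ Δ j).card
  have hc1 : ∀ j, 0 < c j := fun j =>
    Finset.card_pos.2 ⟨j, by simp⟩
  have hc2 : ∀ j, c j ≤ Fintype.card J := fun j => Finset.card_le_univ _
  refine ⟨fun j => 1 - c j / (2 * Fintype.card J), ?_, ?_⟩
  · intro j
    have hN : (0:ℝ) < Fintype.card J := by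
      exact_mod_cast (hc1 j).trans_le (hc2 j)
    have h1 : (0:ℝ) < c j := by exact_mod_cast hc1 j
    have h2 : (c j : ℝ) ≤ Fintype.card J := by exact_mod_cast hc2 j
    have h3 : 0 < (c j : ℝ) / (2 * Fintype.card J) := by positivity
    have h4 : (c j : ℝ) / (2 * Fintype.card J) < 1 := by
      rw [div_lt_one (by positivity)]; linarith
    constructor <;> linarith
  · intro i j hij hsub
    have hlt : c i < c j := by
      apply Finset.card_lt_card
      rw [Finset.ssubset_iff_of_subset]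
      · refine ⟨j, by simp, ?_⟩
        simp only [Finset.mem_filter, Finset.mem_univ, true_and]
        intro hji
        obtain ⟨x, hx⟩ := hne j
        exact (hsub (hji (hΓΔ j hx))).2 hx
      · intro k hk
        simp only [Finset.mem_filter, Finset.mem_univ, true_and] at hk ⊢
        exact hk.trans (hsub.trans sdiff_subset)
    have hN : (0:ℝ) < Fintype.card J := by
      exact_mod_cast (hc1 j).trans_le (hc2 j)
    have : (c i : ℝ) < c j := by exact_mod_cast hlt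
    have h5 : (c i : ℝ) / (2 * Fintype.card J) < c j / (2 * Fintype.card J) := by gcongr
    linarith

/-- **Filling** (dimension free): a finite laminar family of conical `n`-balls in a ray base can
be replaced by pairwise disjoint conical `n`-balls inside the cone with the same boundaries. -/
theorem exists_fill {J : Type*} [Finite J] {B : Set E} (hB : RayBase B) {n : ℕ} (hn : n ≠ 0)
    (Γ Δ : J → Set E) (hball : ∀ j, ConBall n (Δ j) (Γ j)) (hΔB : ∀ j, Δ j ⊆ B)
    (hdis : ∀ i j, i ≠ j → Disjoint (Γ i) (Γ j))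
    (hlam : ∀ i j, i ≠ j → Disjoint (Δ i) (Δ j) ∨ Δ i ⊆ Δ j \ Γ j ∨ Δ j ⊆ Δ i \ Γ i) :
    ∃ D : J → Set E, (∀ j, ConBall n (D j) (Γ j)) ∧ (∀ j, D j ∩ B = Γ j) ∧
      (∀ j, D j ⊆ coneSet B) ∧ ∀ i j, i ≠ j → Disjoint (D i) (D j) := by
  have : Nonempty (Fin n) := ⟨⟨0, Nat.pos_of_ne_zero hn⟩⟩
  have hΓΔ : ∀ j, Γ j ⊆ Δ j := fun j => (hball j).1
  have hne : ∀ j, (Γ j).Nonempty := by
    intro j
    obtain ⟨φ, hφ⟩ := (hball j).eq_preimage
    rw [← hφ]
    exact (NormedSpace.sphere_nonempty.2 zero_le_one).image _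
  obtain ⟨r, hr, hlt⟩ := exists_radii Γ Δ hΓΔ hne
  refine ⟨fun j => P073.pushed (r j) (Γ j) (Δ j), fun j => ?_, fun j => ?_, fun j => ?_, ?_⟩
  · exact (hball j).pushed hn hB (hΔB j) (hr j).1 (hr j).2
  · exact pushed_inter_base hB ((hΓΔ j).trans (hΔB j)) (hΔB j) (hr j).1 (hr j).2
  · rintro y (⟨t, ht, x, hx, rfl⟩ | ⟨x, hx, rfl⟩)
    · exact ⟨t, ⟨(hr j).1.le.trans ht.1, ht.2⟩, x, hΔB j (hΓΔ j hx), rfl⟩
    · exact ⟨r j, ⟨(hr j).1.le, (hr j).2.le⟩, x, hΔB j hx, rfl⟩
  · intro i j hij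
    have aux : ∀ i j, i ≠ j → (Γ i ∩ Δ j).Nonempty → r j < r i := by
      rintro i j hij ⟨x, hx, hx'⟩
      rcases hlam i j hij with h | h | h
      · exact absurd hx' (Set.disjoint_left.1 h (hΓΔ i hx))
      · exact hlt i j hij h
      · exact absurd hx (h hx').2
    refine disjoint_pushed hB ((hΓΔ i).trans (hΔB i)) (hΔB i) ((hΓΔ j).trans (hΔB j)) (hΔB j)
      (hr i).1 (hr j).1 (hdis i j hij) (aux i j hij) (aux j i hij.symm) ?_
    rintro ⟨x, hx, hx'⟩
    rcases hlam i j hij with h | h | h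
    · exact absurd hx' (Set.disjoint_left.1 h hx)
    · exact (hlt i j hij h).ne'
    · exact (hlt j i hij.symm h).ne

end P073
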