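import Vale.Agent.P073.ConHomeo

/-!
# P073, block PR: nested pushes

`B` is a ray base (boundary of a convex body around `0`), `Γ ⊆ Δ ⊆ B`. The pushed copy
`pushed r Γ Δ = [r,1]·Γ ∪ r·Δ` of `Δ` meets `B` only in `Γ` (if `r < 1`), it is conically
homeomorphic to `coneSet Γ` rel `Γ` if `Δ` is, and the pushed copies of a nested family are
disjoint if the radii are chosen decreasing from inside to outside.
-/

open Set Metric Topology Filter

namespace P073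

variable {E F : Type*} [NormedAddCommGroup E] [NormedSpace ℝ E]
  [NormedAddCommGroup F] [NormedSpace ℝ F]

/-- the radial wall `[r,1]·Γ`. -/
def wall (r : ℝ) (Γ : Set E) : Set E := {y | ∃ t ∈ Icc r 1, ∃ x ∈ Γ, y = t • x}

/-- the scaled copy `r·Δ`. -/
def scaled (r : ℝ) (Δ : Set E) : Set E := (fun x => r • x) '' Δ

/-- the pushed copy of `Δ`. -/
def pushed (r : ℝ) (Γ Δ : Set E) : Set E := wall r Γ ∪ scaled r Δ

section sets

variable {B Γ Γ' Δ Δ' : Set E} {r r' : ℝ}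

theorem wall_subset_coneSet (hr : 0 ≤ r) : wall r Γ ⊆ coneSet Γ := by
  rintro y ⟨t, ht, x, hx, rfl⟩
  exact ⟨t, ⟨hr.trans ht.1, ht.2⟩, x, hx, rfl⟩

theorem subset_wall (hr : r ≤ 1) : Γ ⊆ wall r Γ := fun x hx =>
  ⟨1, ⟨hr, le_refl _⟩, x, hx, (one_smul _ _).symm⟩

theorem isCompact_wall (hΓ : IsCompact Γ) : IsCompact (wall r Γ) := by
  have : wall r Γ = (fun p : ℝ × E => p.1 • p.2) '' (Icc r 1 ×ˢ Γ) := by
    ext y
    constructor
    · rintro ⟨t, ht, x, hx, rfl⟩; exact ⟨(t, x), ⟨ht, hx⟩, rfl⟩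
    · rintro ⟨⟨t, x⟩, ⟨ht, hx⟩, rfl⟩; exact ⟨t, ht, x, hx, rfl⟩
  rw [this]
  exact (isCompact_Icc.prod hΓ).image (continuous_fst.smul continuous_snd)

theorem isCompact_scaled (hΔ : IsCompact Δ) : IsCompact (scaled r Δ) :=
  hΔ.image (continuous_const_smul r)

theorem isCompact_pushed (hΓ : IsCompact Γ) (hΔ : IsCompact Δ) : IsCompact (pushed r Γ Δ) :=
  (isCompact_wall hΓ).union (isCompact_scaled hΔ)

/-- a pushed copy meets the base only in `Γ`. -/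
theorem pushed_inter_base (hB : RayBase B) (hΓ : Γ ⊆ B) (hΔ : Δ ⊆ B) (h0 : 0 < r) (h1 : r < 1) :
    pushed r Γ Δ ∩ B = Γ := by
  ext y
  constructor
  · rintro ⟨hy, hyB⟩
    rcases hy with ⟨t, ht, x, hx, rfl⟩ | ⟨x, hx, rfl⟩
    · have : t = 1 := hB.ray x (hΓ hx) t (h0.trans_le ht.1) hyB
      subst this; simpa using hx
    · exact absurd (hB.ray x (hΔ hx) r h0 hyB) h1.ne
  · intro hy
    exact ⟨Or.inl (subset_wall h1.le hy), hΓ hy⟩

/-- points of the pushed copy outside `Γ` are strictly inside. -/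
theorem mem_pushed_of_notMem (h0 : 0 < r) (h1 : r < 1) {y : E} (hy : y ∈ pushed r Γ Δ)
    (hyΓ : y ∉ Γ) : ∃ s ∈ Ioo (0:ℝ) 1, ∃ x ∈ Γ ∪ Δ, y = s • x := by
  rcases hy with ⟨t, ht, x, hx, rfl⟩ | ⟨x, hx, rfl⟩
  · refine ⟨t, ⟨h0.trans_le ht.1, lt_of_le_of_ne ht.2 ?_⟩, x, Or.inl hx, rfl⟩
    rintro rfl
    exact hyΓ (by simpa using hx)
  · exact ⟨r, ⟨h0, h1⟩, x, Or.inr hx, rfl⟩

/-- disjointness of pushed copies. -/
theorem disjoint_pushed (hB : RayBase B) (hΓ : Γ ⊆ B) (hΔ : Δ ⊆ B) (hΓ' : Γ' ⊆ B) (hΔ' : Δ' ⊆ B)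
    (h0 : 0 < r) (h0' : 0 < r') (hΓΓ' : Disjoint Γ Γ')
    (h1 : (Γ ∩ Δ').Nonempty → r' < r) (h2 : (Γ' ∩ Δ).Nonempty → r < r')
    (h3 : (Δ ∩ Δ').Nonempty → r ≠ r') : Disjoint (pushed r Γ Δ) (pushed r' Γ' Δ') := by
  rw [Set.disjoint_left]
  rintro y hy hy'
  rcases hy with ⟨t, ht, x, hx, rfl⟩ | ⟨x, hx, rfl⟩
  · rcases hy' with ⟨t', ht', x', hx', he⟩ | ⟨x', hx', he⟩
    · obtain ⟨-, rfl⟩ := hB.unique (hΓ hx) (hΓ' hx') (h0.trans_le ht.1) (h0'.trans_le ht'.1) he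
      exact Set.disjoint_left.1 hΓΓ' hx hx'
    · obtain ⟨h4, rfl⟩ := hB.unique (hΔ' hx') (hΓ hx) h0' (h0.trans_le ht.1) he
      have := h1 ⟨_, hx, hx'⟩
      have h5 := ht.1
      linarith
  · rcases hy' with ⟨t', ht', x', hx', he⟩ | ⟨x', hx', he⟩
    · obtain ⟨h4, rfl⟩ := hB.unique (hΔ hx) (hΓ' hx') h0 (h0'.trans_le ht'.1) he
      have := h2 ⟨_, hx', hx⟩
      have h5 := ht'.1
      linarith
    · obtain ⟨h4, rfl⟩ := hB.unique (hΔ' hx') (hΔ hx) h0' h0 he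
      exact h3 ⟨_, hx, hx'⟩ h4.symm

end sets

/-! ### conicality of the wall -/

/-- superlevel sets of a conical function are conical -/
theorem ConicalOn.conicalSet_superlevel {X : Set E} {ρ : E → ℝ} (hρ : ConicalOn ρ X)
    (hc : ContinuousOn ρ X) (c : ℝ) : ConicalSet {x | x ∈ X ∧ c ≤ ρ x} := by
  rintro x ⟨hx, hcx⟩
  obtain ⟨r, hr, H⟩ := hρ x hx
  rcases eq_or_lt_of_le hcx with he | hlt
  · refine ⟨r, hr, ?_⟩
    rintro v hv ⟨hxv, hcv⟩ t ht
    obtain ⟨h1, h2⟩ := H v hv hxv t ht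
    refine ⟨h1, ?_⟩
    rw [h2, smul_eq_mul, ← he]
    have : 0 ≤ t * (ρ (x + v) - c) := mul_nonneg ht.1 (by linarith)
    linarith
  · have hev : ∀ᶠ y in 𝓝[X] x, c < ρ y := (hc x hx).eventually (lt_mem_nhds hlt)
    obtain ⟨s, hs, Hs⟩ := exists_radius_of_nhdsWithin hev
    refine ⟨min r s, lt_min hr hs, ?_⟩
    rintro v hv ⟨hxv, -⟩ t ht
    obtain ⟨h1, -⟩ := H v (hv.trans (min_le_left _ _)) hxv t ht
    refine ⟨h1, (Hs (t • v) ?_ h1).le⟩
    exact norm_smul_le_of_mem_Icc ht (hv.trans (min_le_right _ _))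

/-- sublevel sets of a conical function are conical -/
theorem ConicalOn.conicalSet_sublevel {X : Set E} {ρ : E → ℝ} (hρ : ConicalOn ρ X)
    (hc : ContinuousOn ρ X) (c : ℝ) : ConicalSet {x | x ∈ X ∧ ρ x ≤ c} := by
  have h := (hρ.neg).conicalSet_superlevel (c := -c) hc.neg
  have : {x | x ∈ X ∧ ρ x ≤ c} = {x | x ∈ X ∧ -c ≤ -ρ x} := by
    ext x; simp
  rw [this]; exact h

section cone

variable {Γ Δ : Set E} {r : ℝ}

/-- the radial function of a ray base: `gauge (s • x) = s`. -/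
noncomputable def radial (Γ : Set E) : E → ℝ := coneMap Γ fun _ => (1:ℝ)

theorem radial_smul (hΓ : RayBase Γ) {s : ℝ} (hs : s ∈ Icc (0:ℝ) 1) {x : E} (hx : x ∈ Γ) :
    radial Γ (s • x) = s := by
  unfold radial
  rw [coneMap_smul hΓ _ hs hx]; simp

theorem continuousOn_radial (hΓ : RayBase Γ) : ContinuousOn (radial Γ) (coneSet Γ) :=
  continuousOn_coneMap hΓ continuousOn_const

theorem conicalOn_radial (hΓ : RayBase Γ) (hc : ConicalSet Γ) :
    ConicalOn (radial Γ) (coneSet Γ) :=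
  conicalOn_coneMap hΓ (conicalOn_const 1 hc)

theorem wall_eq (hΓ : RayBase Γ) (h0 : 0 < r) :
    wall r Γ = {x | x ∈ coneSet Γ ∧ r ≤ radial Γ x} := by
  ext y
  constructor
  · rintro ⟨t, ht, x, hx, rfl⟩
    have hs : t ∈ Icc (0:ℝ) 1 := ⟨h0.le.trans ht.1, ht.2⟩
    exact ⟨⟨t, hs, x, hx, rfl⟩, by rw [radial_smul hΓ hs hx]; exact ht.1⟩
  · rintro ⟨⟨s, hs, x, hx, rfl⟩, h⟩
    rw [radial_smul hΓ hs hx] at h
    exact ⟨s, ⟨h, hs.2⟩, x, hx, rfl⟩

theorem conicalSet_wall (hΓ : RayBase Γ) (hc : ConicalSet Γ) (h0 : 0 < r) :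
    ConicalSet (wall r Γ) := by
  rw [wall_eq hΓ h0]
  exact (conicalOn_radial hΓ hc).conicalSet_superlevel (continuousOn_radial hΓ) r

/-- homothety as a conical homeomorphism -/
noncomputable def ConHomeo.homothety {X : Set E} (hX : ConicalSet X) (r : ℝ) (hr : r ≠ 0) :
    ConHomeo X (scaled r X) where
  toFun := fun x => r • x
  invFun := fun x => r⁻¹ • x
  mapsTo := fun x hx => ⟨x, hx, rfl⟩
  mapsTo_inv := by
    rintro _ ⟨x, hx, rfl⟩
    simpa [smul_smul, inv_mul_cancel₀ hr] using hx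
  left_inv := fun x _ => by simp [smul_smul, inv_mul_cancel₀ hr]
  right_inv := fun x _ => by simp [smul_smul, mul_inv_cancel₀ hr]
  cont := (continuous_const_smul r).continuousOn
  cont_inv := (continuous_const_smul r⁻¹).continuousOn
  conical := (conicalOn_id hX).const_smul r

@[simp] theorem ConHomeo.homothety_toFun {X : Set E} (hX : ConicalSet X) (r : ℝ) (hr : r ≠ 0) :
    (ConHomeo.homothety hX r hr).toFun = fun x => r • x := rfl

theorem isClosed_of_conHomeo_compact {X : Set E} {Y : Set F} (h : ConHomeo X Y)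
    (hX : IsCompact X) : IsClosed Y := (h.isCompact_right hX).isClosed

theorem coneSet_eq_wall_union (h0 : 0 < r) (h1 : r ≤ 1) :
    coneSet Γ = wall r Γ ∪ scaled r (coneSet Γ) := by
  ext y
  constructor
  · rintro ⟨s, hs, x, hx, rfl⟩
    rcases le_total r s with h | h
    · exact Or.inl ⟨s, ⟨h, hs.2⟩, x, hx, rfl⟩
    · refine Or.inr ⟨(s / r) • x, ⟨s / r, ⟨div_nonneg hs.1 h0.le, (div_le_one h0).2 h⟩, x, hx, rfl⟩, ?_⟩
      simp only [smul_smul]
      rw [mul_div_cancel₀ _ h0.ne']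
  · rintro (⟨t, ht, x, hx, rfl⟩ | ⟨_, ⟨s, hs, x, hx, rfl⟩, rfl⟩)
    · exact ⟨t, ⟨h0.le.trans ht.1, ht.2⟩, x, hx, rfl⟩
    · refine ⟨r * s, ⟨mul_nonneg h0.le hs.1, ?_⟩, x, hx, by simp [smul_smul]⟩
      calc r * s ≤ 1 * 1 := mul_le_mul h1 hs.2 hs.1 zero_le_one
        _ = 1 := one_mul 1

/-- **The pushed copy**: if `Δ` is conically homeomorphic to the cone of `Γ` rel `Γ`, then so is
the pushed copy of `Δ`. -/
theorem exists_pushed_homeo {B : Set E} (hB : RayBase B) (hΓB : Γ ⊆ B) (hΔB : Δ ⊆ B)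
    (hΓ : RayBase Γ) (hΓc : ConicalSet Γ) (h0 : 0 < r) (h1 : r < 1)
    (ψ : ConHomeo (coneSet Γ) Δ) (hψ : EqOn ψ.toFun id Γ) :
    ∃ Φ : ConHomeo (coneSet Γ) (pushed r Γ Δ), EqOn Φ.toFun id Γ := by
  have hcone : ConicalSet (coneSet Γ) := ψ.conicalSet_left
  have hX1 : ConicalSet (wall r Γ) := conicalSet_wall hΓ hΓc h0
  have hK : IsCompact (coneSet Γ) := isCompact_coneSet hΓ.compact
  have hΔK : IsCompact Δ := ψ.isCompact_right hK
  -- the inner piece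
  let a : ConHomeo (scaled r (coneSet Γ)) (scaled r Δ) :=
    ((ConHomeo.homothety hcone r h0.ne').symm.trans ψ).trans
      (ConHomeo.homothety ψ.conicalSet_right r h0.ne')
  have ha : ∀ y, a.toFun y = r • ψ.toFun (r⁻¹ • y) := fun y => rfl
  let b : ConHomeo (wall r Γ) (wall r Γ) := ConHomeo.refl hX1
  have hb : ∀ y, b.toFun y = y := fun y => rfl
  have hint : wall r Γ ∩ scaled r (coneSet Γ) ⊆ scaled r Γ := by
    rintro y ⟨⟨t, ht, x, hx, rfl⟩, ⟨_, ⟨s, hs, x', hx', rfl⟩, he⟩⟩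
    simp only [smul_smul] at he
    have ht0 : 0 < t := h0.trans_le ht.1
    have hs0 : 0 < s := by
      rcases eq_or_lt_of_le hs.1 with h | h
      · exfalso
        rw [← h, mul_zero, zero_smul] at he
        have : x = 0 := by
          have := congrArg (fun z => t⁻¹ • z) he
          simp only [smul_zero, smul_smul, inv_mul_cancel₀ ht0.ne', one_smul] at this
          exact this.symm
        exact hΓ.zero_notMem (this ▸ hx)
      · exact h
    obtain ⟨h4, h5⟩ := hΓ.unique hx' hx (mul_pos h0 hs0) ht0 he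
    have hsle : r * s ≤ r := by nlinarith [hs.2]
    have : t = r := le_antisymm (by linarith) ht.1
    subst this
    exact ⟨x, hx, rfl⟩
  have hsc : scaled r Γ ⊆ wall r Γ ∩ scaled r (coneSet Γ) := by
    rintro _ ⟨x, hx, rfl⟩
    exact ⟨⟨r, ⟨le_refl _, h1.le⟩, x, hx, rfl⟩, ⟨x, subset_coneSet hx, rfl⟩⟩
  have hag : EqOn b.toFun a.toFun (wall r Γ ∩ scaled r (coneSet Γ)) := by
    intro y hy
    obtain ⟨x, hx, rfl⟩ := hint hy
    rw [hb, ha]
    simp only [smul_smul, inv_mul_cancel₀ h0.ne', one_smul]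
    rw [hψ hx]; rfl
  have himg : wall r Γ ∩ scaled r Δ ⊆ b.toFun '' (wall r Γ ∩ scaled r (coneSet Γ)) := by
    rintro y ⟨⟨t, ht, x, hx, rfl⟩, ⟨x', hx', he⟩⟩
    obtain ⟨h4, h5⟩ := hB.unique (hΔB hx') (hΓB hx) h0 (h0.trans_le ht.1) he
    refine ⟨t • x, hsc ⟨x, hx, ?_⟩, rfl⟩
    simp only [h4]
  have hcl1 : IsClosed (wall r Γ) := (isCompact_wall hΓ.compact).isClosed
  have hcl2 : IsClosed (scaled r (coneSet Γ)) := (isCompact_scaled hK).isClosed
  have hcl3 : IsClosed (scaled r Δ) := (isCompact_scaled hΔK).isClosed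
  let Φ := ConHomeo.glue b a hcl1 hcl2 hcl1 hcl3 hag himg
  have hpe : wall r Γ ∪ scaled r Δ = pushed r Γ Δ := rfl
  refine ⟨Φ.cast (coneSet_eq_wall_union h0 h1.le).symm hpe, ?_⟩
  intro x hx
  change Φ.toFun x = id x
  exact ConHomeo.glue_left b a hcl1 hcl2 hcl1 hcl3 hag himg (subset_wall h1.le hx)

end cone

end P073
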